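import Mathlib

/-!
P249C, module MCSHANE: Lipschitz extension.
-/

open Finset

namespace Vale.Agent.P249C

theorem exists_reg {X : Type} [Fintype X] (d : X → X → ℝ) (hd : ∀ x y, 0 ≤ d x y)
    (hd0 : ∀ x, d x x = 0) (hsymm : ∀ x y, d x y = d y x)
    (htri : ∀ x y z, d x z ≤ d x y + d y z) (u a : X → ℝ)
    (h : ∀ x y, |u x - u y| ≤ max (a x) (a y) * d x y) (A : ℝ) (hA : 0 ≤ A) :
    ∃ v : X → ℝ, (∀ x y, |v x - v y| ≤ A * d x y) ∧ ∀ x, a x ≤ A → v x = u x := by
  classical
  by_cases hS : (univ.filter fun y : X => a y ≤ A).Nonempty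
  · set S : Finset X := univ.filter fun y : X => a y ≤ A with hSdef
    have hmem : ∀ y, y ∈ S ↔ a y ≤ A := by
      intro y
      simp [hSdef]
    have hle : ∀ x, ∀ y ∈ S, S.inf' hS (fun y => u y + A * d x y) ≤ u y + A * d x y :=
      fun x y hy => Finset.inf'_le _ hy
    have hone : ∀ x y, S.inf' hS (fun z => u z + A * d x z) ≤
        S.inf' hS (fun z => u z + A * d y z) + A * d x y := by
      intro x y
      obtain ⟨z, hz, hz'⟩ := Finset.exists_mem_eq_inf' hS (fun z => u z + A * d y z)
      rw [hz']
      have h1 := hle x z hz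
      have h2 := mul_le_mul_of_nonneg_left (htri x y z) hA
      linarith
    refine ⟨fun x => S.inf' hS (fun y => u y + A * d x y), fun x y => ?_, fun x hx => ?_⟩
    · rw [abs_le]
      have h1 := hone x y
      have h2 := hone y x
      rw [hsymm y x] at h2
      constructor <;> linarith
    · have hxS : x ∈ S := (hmem x).2 hx
      apply le_antisymm
      · have h1 := hle x x hxS
        rw [hd0, mul_zero, add_zero] at h1
        exact h1
      · refine Finset.le_inf' _ _ fun y hy => ?_
        have h1 := h x y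
        have h2 : max (a x) (a y) * d x y ≤ A * d x y :=
          mul_le_mul_of_nonneg_right (max_le hx ((hmem y).1 hy)) (hd x y)
        have h3 := le_abs_self (u x - u y)
        linarith
  · refine ⟨fun _ => 0, fun x y => ?_, fun x hx => ?_⟩
    · rw [sub_self, abs_zero]
      exact mul_nonneg hA (hd x y)
    · exact absurd ⟨x, by simpa using hx⟩ hS

end Vale.Agent.P249C
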