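import Mathlib
import Vale.Agent.Lib.P249.Sampling

/-!
P249C, module SAMPLE: sampling with additive error.
-/

open Finset

namespace Vale.Agent.P249C

/-- `N` samples with law `q`: all empirical sums are within `ε N m` of their means (all means are
at most `m`) -/
theorem sample_add {K ι : Type} [Fintype K] [Fintype ι] (q : K → ℝ) (hq : ∀ k, 0 ≤ q k)
    (hq1 : ∑ k, q k = 1) (θ : ι → K → ℝ) (h0 : ∀ i k, 0 ≤ θ i k) (h1 : ∀ i k, θ i k ≤ 1)
    (m : ℝ) (hm : ∀ i, ∑ k, q k * θ i k ≤ m) (N : ℕ) (ε : ℝ) (hε0 : 0 < ε) (hε1 : ε ≤ 1)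
    (hN : 2 * (Fintype.card ι : ℝ) * Real.exp (-(ε ^ 2 / 4) * (N * m)) < 1) :
    ∃ k : Fin N → K, ∀ i, |∑ r, θ i (k r) - N * ∑ k, q k * θ i k| ≤ ε * (N * m) := by
  obtain ⟨M, hM⟩ : ∃ M : ℝ, M = N * m := ⟨_, rfl⟩
  obtain ⟨Mi, hMi⟩ : ∃ Mi : ι → ℝ, ∀ i, Mi i = N * ∑ k, q k * θ i k := ⟨fun i => _, fun i => rfl⟩
  obtain ⟨lam, hlam⟩ : ∃ lam : ℝ, lam = ε / 2 := ⟨_, rfl⟩
  have hMle : ∀ i, Mi i ≤ M := by
    intro i
    rw [hMi, hM]
    exact mul_le_mul_of_nonneg_left (hm i) (Nat.cast_nonneg N)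
  have hM0 : ∀ i, 0 ≤ Mi i := by
    intro i
    rw [hMi]
    exact mul_nonneg (Nat.cast_nonneg N)
      (Finset.sum_nonneg fun k _ => mul_nonneg (hq k) (h0 i k))
  rw [← hM] at hN
  -- the potential
  obtain ⟨Φ, hΦ⟩ : ∃ Φ : (Fin N → K) → ℝ, ∀ k, Φ k = ∑ i,
    (Real.exp (-(lam * (Mi i + ε * M))) * (∏ r, Real.exp (lam * θ i (k r)))
      + Real.exp (lam * (Mi i - ε * M)) * (∏ r, Real.exp (-lam * θ i (k r)))) :=
    ⟨fun k => _, fun k => rfl⟩
  have hmom : ∀ (i : ι) (s : ℝ), |s| ≤ 1 →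
      ∑ k : Fin N → K, (∏ r, q (k r)) * ∏ r, Real.exp (s * θ i (k r))
        ≤ Real.exp ((s + s ^ 2) * Mi i) := by
    intro i s hs
    rw [P249.sum_prod_samples N q (fun k => Real.exp (s * θ i k))]
    have h2 := P249.mgf_le q (θ i) hq hq1 (h0 i) (h1 i) s
    have h3 : 0 ≤ ∑ k, q k * Real.exp (s * θ i k) :=
      Finset.sum_nonneg fun k _ => mul_nonneg (hq k) (Real.exp_pos _).le
    calc (∑ k, q k * Real.exp (s * θ i k)) ^ N
        ≤ (Real.exp ((Real.exp s - 1) * ∑ k, q k * θ i k)) ^ N := pow_le_pow_left₀ h3 h2 N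
      _ = Real.exp ((Real.exp s - 1) * Mi i) := by
          rw [← Real.exp_nat_mul, hMi]; congr 1; ring
      _ ≤ Real.exp ((s + s ^ 2) * Mi i) := by
          refine Real.exp_le_exp.mpr (mul_le_mul_of_nonneg_right ?_ (hM0 i))
          have := P249.exp_le_quad hs; linarith
  have hE : ∑ k : Fin N → K, (∏ r, q (k r)) * Φ k
      ≤ 2 * (Fintype.card ι : ℝ) * Real.exp (-(ε ^ 2 / 4) * M) := by
    have e1 : ∑ k : Fin N → K, (∏ r, q (k r)) * Φ k
        = ∑ i, (Real.exp (-(lam * (Mi i + ε * M))) *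
            (∑ k : Fin N → K, (∏ r, q (k r)) * ∏ r, Real.exp (lam * θ i (k r)))
          + Real.exp (lam * (Mi i - ε * M)) *
            (∑ k : Fin N → K, (∏ r, q (k r)) * ∏ r, Real.exp (-lam * θ i (k r)))) := by
      simp only [hΦ, Finset.mul_sum]
      rw [Finset.sum_comm]
      refine Finset.sum_congr rfl fun i _ => ?_
      rw [← Finset.sum_add_distrib]
      refine Finset.sum_congr rfl fun k _ => ?_
      ring
    rw [e1]
    have hl1 : |lam| ≤ 1 := by rw [hlam, abs_of_pos (by linarith)]; linarith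
    have hl2 : |-lam| ≤ 1 := by rwa [abs_neg]
    calc _ ≤ ∑ _i : ι, (2 * Real.exp (-(ε ^ 2 / 4) * M)) := by
          refine Finset.sum_le_sum fun i _ => ?_
          have a1 := mul_le_mul_of_nonneg_left (hmom i lam hl1)
            (Real.exp_pos (-(lam * (Mi i + ε * M)))).le
          have a2 := mul_le_mul_of_nonneg_left (hmom i (-lam) hl2)
            (Real.exp_pos (lam * (Mi i - ε * M))).le
          rw [← Real.exp_add] at a1 a2
          have hMl := mul_le_mul_of_nonneg_left (hMle i) (sq_nonneg lam)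
          have hll : lam * ε = 2 * lam ^ 2 := by rw [hlam]; ring
          have hl4 : ε ^ 2 / 4 = lam ^ 2 := by rw [hlam]; ring
          have b1 : -(lam * (Mi i + ε * M)) + (lam + lam ^ 2) * Mi i ≤ -(ε ^ 2 / 4) * M := by
            have : -(lam * (Mi i + ε * M)) + (lam + lam ^ 2) * Mi i
                = lam ^ 2 * Mi i - (lam * ε) * M := by ring
            rw [this, hll, hl4]
            linarith
          have b2 : lam * (Mi i - ε * M) + (-lam + (-lam) ^ 2) * Mi i ≤ -(ε ^ 2 / 4) * M := by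
            have : lam * (Mi i - ε * M) + (-lam + (-lam) ^ 2) * Mi i
                = lam ^ 2 * Mi i - (lam * ε) * M := by ring
            rw [this, hll, hl4]
            linarith
          have b3 := Real.exp_le_exp.mpr b1
          have b4 := Real.exp_le_exp.mpr b2
          linarith
      _ = _ := by
          rw [Finset.sum_const, Finset.card_univ, nsmul_eq_mul]; ring
  have hsum1 : ∑ k : Fin N → K, (∏ r, q (k r)) = 1 := by
    have := P249.sum_prod_samples N q (fun _ => 1)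
    simp only [Finset.prod_const_one, mul_one] at this
    rw [this, hq1, one_pow]
  have hlt : ∑ k : Fin N → K, (∏ r, q (k r)) * Φ k < ∑ k : Fin N → K, (∏ r, q (k r)) * 1 := by
    simp only [mul_one]
    rw [hsum1]
    exact lt_of_le_of_lt hE hN
  obtain ⟨k, _, hk⟩ := Finset.exists_lt_of_sum_lt hlt
  have hprod : 0 < ∏ r, q (k r) := by
    rcases (Finset.prod_nonneg fun r (_ : r ∈ Finset.univ) => hq (k r)).lt_or_eq with h | h
    · exact h
    · rw [← h] at hk; simp at hk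
  have hΦk : Φ k < 1 := lt_of_mul_lt_mul_left hk hprod.le
  rw [hΦ] at hΦk
  refine ⟨k, fun i => ?_⟩
  have hlampos : 0 < lam := by rw [hlam]; linarith
  have hterm : Real.exp (-(lam * (Mi i + ε * M))) * (∏ r, Real.exp (lam * θ i (k r)))
      + Real.exp (lam * (Mi i - ε * M)) * (∏ r, Real.exp (-lam * θ i (k r))) < 1 := by
    refine lt_of_le_of_lt ?_ hΦk
    exact Finset.single_le_sum (f := fun i =>
      Real.exp (-(lam * (Mi i + ε * M))) * (∏ r, Real.exp (lam * θ i (k r)))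
      + Real.exp (lam * (Mi i - ε * M)) * (∏ r, Real.exp (-lam * θ i (k r))))
      (fun i _ => add_nonneg
        (mul_nonneg (Real.exp_pos _).le (Finset.prod_nonneg fun r _ => (Real.exp_pos _).le))
        (mul_nonneg (Real.exp_pos _).le (Finset.prod_nonneg fun r _ => (Real.exp_pos _).le)))
      (Finset.mem_univ i)
  have p1 : Real.exp (-(lam * (Mi i + ε * M))) * (∏ r, Real.exp (lam * θ i (k r)))
      = Real.exp (lam * (∑ r, θ i (k r) - (Mi i + ε * M))) := by
    rw [← Real.exp_sum, ← Real.exp_add, ← Finset.mul_sum]; congr 1; ring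
  have p2 : Real.exp (lam * (Mi i - ε * M)) * (∏ r, Real.exp (-lam * θ i (k r)))
      = Real.exp (lam * (Mi i - ε * M - ∑ r, θ i (k r))) := by
    rw [← Real.exp_sum, ← Real.exp_add, ← Finset.mul_sum]; congr 1; ring
  rw [p1, p2] at hterm
  have c1 := Real.exp_pos (lam * (∑ r, θ i (k r) - (Mi i + ε * M)))
  have c2 := Real.exp_pos (lam * (Mi i - ε * M - ∑ r, θ i (k r)))
  have d1 : lam * (∑ r, θ i (k r) - (Mi i + ε * M)) < 0 := by
    rw [← Real.exp_lt_one_iff]; linarith
  have d2 : lam * (Mi i - ε * M - ∑ r, θ i (k r)) < 0 := by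
    rw [← Real.exp_lt_one_iff]; linarith
  have f1 : ∑ r, θ i (k r) - (Mi i + ε * M) < 0 := by
    by_contra hc; push Not at hc
    exact absurd (mul_nonneg hlampos.le hc) (not_le.mpr d1)
  have f2 : Mi i - ε * M - ∑ r, θ i (k r) < 0 := by
    by_contra hc; push Not at hc
    exact absurd (mul_nonneg hlampos.le hc) (not_le.mpr d2)
  rw [← hMi, ← hM, abs_le]
  constructor <;> linarith

end Vale.Agent.P249C
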