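import Mathlib
import Vale.Agent.Lib.P249C.SampleAdd

/-!
P249C, module PART2: hashing sparsely active coordinates.
-/

open Finset

namespace Vale.Agent.P249C

theorem ph_pow {ι : Type*} [DecidableEq ι] (S T : Finset ι) (a : ι → ℝ)
    (hT : ∀ i, i ∉ T → a i = 0) {p M : ℝ} (hp : 1 ≤ p) (hM : (T.card : ℝ) ≤ M) :
    |∑ i ∈ S, a i| ^ p ≤ M ^ (p - 1) * ∑ i ∈ S, |a i| ^ p := by
  have h1 : ∑ i ∈ S, a i = ∑ i ∈ S ∩ T, a i := by
    symm
    refine sum_subset inter_subset_left fun i hi hi' => hT i fun h => hi' (mem_inter.mpr ⟨hi, h⟩)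
  rw [h1]
  have h2 : |∑ i ∈ S ∩ T, a i| ≤ ∑ i ∈ S ∩ T, |a i| := abs_sum_le_sum_abs _ _
  have h3 := Real.rpow_sum_le_const_mul_sum_rpow (S ∩ T) a hp
  have h4 : ((S ∩ T).card : ℝ) ≤ M :=
    le_trans (by exact_mod_cast card_le_card inter_subset_right) hM
  have h5 : ((S ∩ T).card : ℝ) ^ (p - 1) ≤ M ^ (p - 1) :=
    Real.rpow_le_rpow (Nat.cast_nonneg _) h4 (by linarith)
  have h6 : ∑ i ∈ S ∩ T, |a i| ^ p ≤ ∑ i ∈ S, |a i| ^ p :=
    sum_le_sum_of_subset_of_nonneg inter_subset_left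
      fun i _ _ => Real.rpow_nonneg (abs_nonneg _) _
  calc |∑ i ∈ S ∩ T, a i| ^ p ≤ (∑ i ∈ S ∩ T, |a i|) ^ p :=
        Real.rpow_le_rpow (abs_nonneg _) h2 (by linarith)
    _ ≤ ((S ∩ T).card : ℝ) ^ (p - 1) * ∑ i ∈ S ∩ T, |a i| ^ p := h3
    _ ≤ M ^ (p - 1) * ∑ i ∈ S, |a i| ^ p :=
        mul_le_mul h5 h6 (sum_nonneg fun i _ => Real.rpow_nonneg (abs_nonneg _) _)
          ((Real.rpow_nonneg (Nat.cast_nonneg _) _).trans h5)

/-- hashed value -/
noncomputable def phV {N1 B : ℕ} (p : ℝ) (a : Fin N1 → ℝ) (h : Fin N1 → Fin B) (b : Fin B) : ℝ :=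
  |∑ i ∈ univ.filter (fun i => h i = b), a i| ^ p

theorem phV_nonneg {N1 B : ℕ} (p : ℝ) (a : Fin N1 → ℝ) (h : Fin N1 → Fin B) (b : Fin B) :
    0 ≤ phV p a h b := Real.rpow_nonneg (abs_nonneg _) _

theorem ph_fiber {N1 B : ℕ} (h : Fin N1 → Fin B) (f : Fin N1 → ℝ) :
    ∑ b, ∑ i ∈ univ.filter (fun i => h i = b), f i = ∑ i, f i :=
  sum_fiberwise univ h f

theorem phV_sum_le {N1 B : ℕ} {p M : ℝ} (hp : 1 ≤ p) (a : Fin N1 → ℝ) (T : Finset (Fin N1))
    (hT : ∀ i, i ∉ T → a i = 0) (hM : (T.card : ℝ) ≤ M) (h : Fin N1 → Fin B) :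
    ∑ b, phV p a h b ≤ M ^ (p - 1) * ∑ i, |a i| ^ p := by
  rw [← ph_fiber h (fun i => |a i| ^ p), mul_sum]
  exact sum_le_sum fun b _ => ph_pow _ T a hT hp hM

theorem phV_le {N1 B : ℕ} {p M : ℝ} (hp : 1 ≤ p) (a : Fin N1 → ℝ) (T : Finset (Fin N1))
    (hT : ∀ i, i ∉ T → a i = 0) (hM : (T.card : ℝ) ≤ M) (h : Fin N1 → Fin B) (b : Fin B) :
    phV p a h b ≤ M ^ (p - 1) * ∑ i, |a i| ^ p :=
  (single_le_sum (f := fun b => phV p a h b) (fun b _ => phV_nonneg p a h b)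
    (mem_univ b)).trans (phV_sum_le hp a T hT hM h)

theorem phV_inj {N1 B : ℕ} {p : ℝ} (hp : 1 ≤ p) (a : Fin N1 → ℝ) (T : Finset (Fin N1))
    (hT : ∀ i, i ∉ T → a i = 0) (h : Fin N1 → Fin B) (hinj : ∀ i ∈ T, ∀ j ∈ T, h i = h j → i = j) :
    ∑ b, phV p a h b = ∑ i, |a i| ^ p := by
  have hp0 : p ≠ 0 := by linarith
  rw [← ph_fiber h (fun i => |a i| ^ p)]
  refine sum_congr rfl fun b _ => ?_
  unfold phV
  by_cases hb : ∃ i ∈ T, h i = b
  · obtain ⟨i, hi, hib⟩ := hb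
    have hother : ∀ j ∈ univ.filter (fun i => h i = b), j ≠ i → a j = 0 := by
      intro j hj hne
      refine hT j fun hjT => hne ?_
      rw [mem_filter] at hj
      exact hinj j hjT i hi (hj.2.trans hib.symm)
    have hmem : i ∈ univ.filter (fun i => h i = b) := by
      rw [mem_filter]; exact ⟨mem_univ _, hib⟩
    rw [sum_eq_single_of_mem i hmem hother, sum_eq_single_of_mem i hmem]
    intro j hj hne
    rw [hother j hj hne, abs_zero, Real.zero_rpow hp0]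
  · push Not at hb
    have hother : ∀ j ∈ univ.filter (fun i => h i = b), a j = 0 := by
      intro j hj
      rw [mem_filter] at hj
      exact hT j fun hjT => hb j hjT hj.2
    rw [sum_eq_zero hother, abs_zero, Real.zero_rpow hp0]
    symm
    refine sum_eq_zero fun j hj => ?_
    rw [hother j hj, abs_zero, Real.zero_rpow hp0]

theorem ph_card_eq {N1 B : ℕ} (i j : Fin N1) (hij : i ≠ j) :
    (univ.filter (fun h : Fin N1 → Fin B => h i = h j)).card * B ≤ B ^ N1 := by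
  have h1 : (univ.filter (fun h : Fin N1 → Fin B => h i = h j)).card * B =
      ((univ.filter (fun h : Fin N1 → Fin B => h i = h j)) ×ˢ (univ : Finset (Fin B))).card := by
    rw [card_product, card_univ, Fintype.card_fin]
  have h2 : B ^ N1 = (univ : Finset (Fin N1 → Fin B)).card := by
    rw [card_univ, Fintype.card_fun, Fintype.card_fin, Fintype.card_fin]
  rw [h1, h2]
  refine card_le_card_of_injOn (fun q => Function.update q.1 i q.2) (fun q _ => by simp) ?_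
  rintro ⟨f, c⟩ hf ⟨f', c'⟩ hf' heq
  simp only [coe_product, Set.mem_prod, mem_coe, mem_filter, mem_univ, true_and] at hf hf'
  simp only at heq
  have hc : c = c' := by
    have := congrFun heq i
    simpa using this
  have hne : ∀ l, l ≠ i → f l = f' l := by
    intro l hl
    have := congrFun heq l
    simpa [Function.update_of_ne hl] using this
  have hfi : f = f' := by
    funext l
    by_cases hl : l = i
    · subst hl
      have h3 := hf.1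
      have h4 := hf'.1
      rw [h3, h4]
      exact hne j hij.symm
    · exact hne l hl
  rw [hfi, hc]

theorem ph_card_bad {N1 B : ℕ} (T : Finset (Fin N1)) :
    (univ.filter (fun h : Fin N1 → Fin B => ¬ ∀ i ∈ T, ∀ j ∈ T, h i = h j → i = j)).card * B ≤
      T.card ^ 2 * B ^ N1 := by
  have hsub : univ.filter (fun h : Fin N1 → Fin B => ¬ ∀ i ∈ T, ∀ j ∈ T, h i = h j → i = j) ⊆
      T.offDiag.biUnion fun q => univ.filter (fun h : Fin N1 → Fin B => h q.1 = h q.2) := by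
    intro h hh
    rw [mem_filter] at hh
    obtain ⟨_, hh⟩ := hh
    push Not at hh
    obtain ⟨i, hi, j, hj, h1, h2⟩ := hh
    rw [mem_biUnion]
    exact ⟨(i, j), by rw [mem_offDiag]; exact ⟨hi, hj, h2⟩, by
      rw [mem_filter]; exact ⟨mem_univ _, h1⟩⟩
  calc (univ.filter (fun h : Fin N1 → Fin B => ¬ ∀ i ∈ T, ∀ j ∈ T, h i = h j → i = j)).card * B
      ≤ (∑ q ∈ T.offDiag, (univ.filter (fun h : Fin N1 → Fin B => h q.1 = h q.2)).card) * B :=
        Nat.mul_le_mul_right _ ((card_le_card hsub).trans card_biUnion_le)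
    _ = ∑ q ∈ T.offDiag, (univ.filter (fun h : Fin N1 → Fin B => h q.1 = h q.2)).card * B := by
        rw [sum_mul]
    _ ≤ ∑ _q ∈ T.offDiag, B ^ N1 := by
        refine sum_le_sum fun q hq => ?_
        rw [mem_offDiag] at hq
        exact ph_card_eq q.1 q.2 hq.2.2
    _ = T.offDiag.card * B ^ N1 := by rw [sum_const, smul_eq_mul]
    _ ≤ T.card ^ 2 * B ^ N1 := by
        refine Nat.mul_le_mul_right _ ?_
        rw [offDiag_card, sq]
        exact Nat.sub_le _ _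

/-- the average of the hashed values is close to the true value -/
theorem ph_mean {N1 B : ℕ} (hB : 0 < B) {p M Q : ℝ} (hp : 1 ≤ p) (a : Fin N1 → ℝ)
    (T : Finset (Fin N1)) (hT : ∀ i, i ∉ T → a i = 0) (hM1 : 1 ≤ M) (hM : (T.card : ℝ) ≤ M)
    (hQ : M ^ (p - 1) * ∑ i, |a i| ^ p ≤ Q) :
    |(∑ h : Fin N1 → Fin B, ∑ b, phV p a h b) / (B : ℝ) ^ N1 - ∑ i, |a i| ^ p| ≤
      M ^ 2 / B * Q := by
  classical
  have hBr : (0 : ℝ) < B := by exact_mod_cast hB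
  have hBN : (0 : ℝ) < (B : ℝ) ^ N1 := by positivity
  set V0 := ∑ i, |a i| ^ p with hV0
  have hV0n : 0 ≤ V0 := sum_nonneg fun i _ => Real.rpow_nonneg (abs_nonneg _) _
  have hMp : 1 ≤ M ^ (p - 1) := Real.one_le_rpow hM1 (by linarith)
  have hV0Q : V0 ≤ Q := by nlinarith
  have hQ0 : 0 ≤ Q := hV0n.trans hV0Q
  set Bad := univ.filter (fun h : Fin N1 → Fin B => ¬ ∀ i ∈ T, ∀ j ∈ T, h i = h j → i = j)
    with hBad
  have hdiff : ∀ h : Fin N1 → Fin B, |∑ b, phV p a h b - V0| ≤ if h ∈ Bad then Q else 0 := by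
    intro h
    by_cases hh : h ∈ Bad
    · rw [if_pos hh, abs_le]
      have h1 := phV_sum_le hp a T hT hM h
      have h2 : 0 ≤ ∑ b, phV p a h b := sum_nonneg fun b _ => phV_nonneg p a h b
      constructor <;> linarith
    · rw [if_neg hh]
      rw [hBad, mem_filter, not_and, not_not] at hh
      rw [phV_inj hp a T hT h (hh (mem_univ _)), sub_self, abs_zero]
  have hcardall : ((univ : Finset (Fin N1 → Fin B)).card : ℝ) = (B : ℝ) ^ N1 := by
    rw [card_univ, Fintype.card_fun, Fintype.card_fin, Fintype.card_fin]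
    push_cast
    rfl
  have h1 : (∑ h : Fin N1 → Fin B, ∑ b, phV p a h b) / (B : ℝ) ^ N1 - V0 =
      (∑ h : Fin N1 → Fin B, (∑ b, phV p a h b - V0)) / (B : ℝ) ^ N1 := by
    rw [sum_sub_distrib, sum_const, nsmul_eq_mul, hcardall, sub_div, mul_div_cancel_left₀]
    exact hBN.ne'
  rw [h1, abs_div, abs_of_pos hBN, div_le_iff₀ hBN]
  have h2 : (Bad.card : ℝ) * B ≤ (T.card : ℝ) ^ 2 * (B : ℝ) ^ N1 := by
    have := ph_card_bad (B := B) T
    exact_mod_cast this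
  have h3 : (Bad.card : ℝ) ≤ M ^ 2 / B * (B : ℝ) ^ N1 := by
    rw [div_mul_eq_mul_div, le_div_iff₀ hBr]
    refine h2.trans ?_
    have : (T.card : ℝ) ^ 2 ≤ M ^ 2 := by
      have := Nat.cast_nonneg (α := ℝ) T.card
      gcongr
    exact mul_le_mul_of_nonneg_right this hBN.le
  calc |∑ h : Fin N1 → Fin B, (∑ b, phV p a h b - V0)|
      ≤ ∑ h : Fin N1 → Fin B, |∑ b, phV p a h b - V0| := abs_sum_le_sum_abs _ _
    _ ≤ ∑ h : Fin N1 → Fin B, (if h ∈ Bad then Q else 0) := sum_le_sum fun h _ => hdiff h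
    _ = Bad.card * Q := by
        rw [sum_ite_mem, univ_inter, sum_const, nsmul_eq_mul]
    _ ≤ M ^ 2 / B * (B : ℝ) ^ N1 * Q := mul_le_mul_of_nonneg_right h3 hQ0
    _ = _ := by ring

/-- the numerical bound -/
theorem ph_number {p m C2 ε P L mm e : ℝ} {B N : ℕ} (hm : 1 ≤ m) (hC2 : 1 ≤ C2) (hε0 : 0 < ε)
    (hε1 : ε ≤ 1) (hPdef : P = (2 * m) ^ (p - 1)) (hP1 : 1 ≤ P) (hB : 0 < B)
    (hBu : (B : ℝ) ≤ 9 * m ^ 2 * P * C2 / ε) (hmm : mm = 3 / 2 / (B * P))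
    (he : e = ε / (3 * C2)) (hL : 1 / 2 ≤ L) (hNu : (N : ℝ) ≤ 12 * L / (e ^ 2 * mm) + 1) :
    (N : ℝ) ≤ 100000 * C2 ^ 3 * (2 * m) ^ (2 * p) * L / ε ^ 3 := by
  have hm0 : 0 < m := by linarith
  have hP0 : 0 < P := by linarith
  have hC20 : 0 < C2 := by linarith
  have hBr : (0 : ℝ) < B := by exact_mod_cast hB
  have h1 : 12 * L / (e ^ 2 * mm) = 72 * C2 ^ 2 * L * B * P / ε ^ 2 := by
    rw [he, hmm]
    field_simp
    ring
  have h2 : (2 * m) ^ (2 * p) = 4 * m ^ 2 * P ^ 2 := by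
    have h3 : (2 * m) ^ (2 * p) = (2 * m) ^ (2 : ℝ) * (2 * m) ^ ((p - 1) * 2) := by
      rw [← Real.rpow_add (by linarith)]
      congr 1
      ring
    rw [h3, Real.rpow_mul (by linarith), ← hPdef, Real.rpow_two, Real.rpow_two]
    ring
  have h4 : 72 * C2 ^ 2 * L * B * P / ε ^ 2 ≤ 162 * (C2 ^ 3 * (4 * m ^ 2 * P ^ 2) * L / ε ^ 3) := by
    have hL0 : 0 < L := by linarith
    calc 72 * C2 ^ 2 * L * B * P / ε ^ 2 ≤
          72 * C2 ^ 2 * L * (9 * m ^ 2 * P * C2 / ε) * P / ε ^ 2 := by gcongr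
      _ = _ := by
          field_simp
          ring
  have h5 : 1 ≤ C2 ^ 3 * (4 * m ^ 2 * P ^ 2) * L / ε ^ 3 := by
    have hL0 : 0 < L := by linarith
    rw [le_div_iff₀ (by positivity), one_mul]
    have h6 : ε ^ 3 ≤ 1 := pow_le_one₀ hε0.le hε1
    have h7 : 1 ≤ C2 ^ 3 := one_le_pow₀ hC2
    have h8 : 1 ≤ m ^ 2 := one_le_pow₀ hm
    have h9 : 1 ≤ P ^ 2 := one_le_pow₀ hP1
    have h10 : 1 ≤ m ^ 2 * P ^ 2 := one_le_mul_of_one_le_of_one_le h8 h9
    have h11 : 1 ≤ C2 ^ 3 * (m ^ 2 * P ^ 2) := one_le_mul_of_one_le_of_one_le h7 h10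
    nlinarith
  rw [h2]
  have h12 : 100000 * C2 ^ 3 * (4 * m ^ 2 * P ^ 2) * L / ε ^ 3 =
      100000 * (C2 ^ 3 * (4 * m ^ 2 * P ^ 2) * L / ε ^ 3) := by ring
  rw [h12]
  rw [h1] at hNu
  linarith

/-- the construction, given the parameters -/
theorem ph_core {X : Type} [Fintype X] [DecidableEq X] {p : ℝ} (hp : 1 ≤ p)
    (d : X → X → ℝ) (hd : ∀ x y, 0 ≤ d x y) {N1 : ℕ} (g : Fin N1 → X → ℝ) (m C2 ε : ℝ)
    (hm : 1 ≤ m) (hC2 : 1 ≤ C2) (hε0 : 0 < ε)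
    (hact : ∀ x, ((univ.filter (fun i => g i x ≠ 0)).card : ℝ) ≤ m)
    (hsum : ∀ x y, ∑ i, |g i x - g i y| ^ p ≤ C2 * d x y ^ p) (P : ℝ)
    (hPdef : P = (2 * m) ^ (p - 1)) (hP1 : 1 ≤ P) (B : ℕ) (hB : 0 < B)
    (hBl : 8 * m ^ 2 * P * C2 / ε ≤ B) (mm : ℝ) (hmm : mm = 3 / 2 / (B * P)) (e : ℝ)
    (he : e = ε / (3 * C2)) (he0 : 0 < e) (he1 : e ≤ 1) (N : ℕ) (hN : 0 < N)
    (hexp : 2 * (Fintype.card (X × X) : ℝ) * Real.exp (-(e ^ 2 / 4) * (N * mm)) < 1)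
    (hε1 : ε ≤ 1) :
    ∃ G : X → Fin N → ℝ,
      ∀ x y, |∑ k, |G x k - G y k| ^ p - ∑ i, |g i x - g i y| ^ p| ≤ ε * d x y ^ p := by
  classical
  have hm0 : 0 < m := by linarith
  have hP0 : 0 < P := by linarith
  have hC20 : 0 < C2 := by linarith
  have hBr : (0 : ℝ) < B := by exact_mod_cast hB
  have hBN : (0 : ℝ) < (B : ℝ) ^ N1 := by positivity
  have hmm0 : 0 < mm := by rw [hmm]; positivity
  have hNr : (0 : ℝ) < N := by exact_mod_cast hN
  -- data of a pair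
  obtain ⟨a, ha⟩ : ∃ a : X × X → Fin N1 → ℝ, a = fun z i => g i z.1 - g i z.2 := ⟨_, rfl⟩
  obtain ⟨T, hT⟩ : ∃ T : X × X → Finset (Fin N1),
      T = fun z => univ.filter (fun i => g i z.1 ≠ 0) ∪ univ.filter (fun i => g i z.2 ≠ 0) :=
    ⟨_, rfl⟩
  have hT0 : ∀ z i, i ∉ T z → a z i = 0 := by
    intro z i hi
    rw [hT] at hi
    simp only [mem_union, mem_filter, mem_univ, true_and, not_or, not_not] at hi
    rw [ha]
    simp only [hi.1, hi.2, sub_self]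
  have hTc : ∀ z, ((T z).card : ℝ) ≤ 2 * m := by
    intro z
    have h1 : (T z).card ≤ (univ.filter (fun i => g i z.1 ≠ 0)).card +
        (univ.filter (fun i => g i z.2 ≠ 0)).card := by
      rw [hT]
      exact card_union_le _ _
    have h2 : ((T z).card : ℝ) ≤ ((univ.filter (fun i => g i z.1 ≠ 0)).card : ℝ) +
        ((univ.filter (fun i => g i z.2 ≠ 0)).card : ℝ) := by exact_mod_cast h1
    have h3 := hact z.1
    have h4 := hact z.2
    linarith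
  obtain ⟨dp, hdp⟩ : ∃ dp : X × X → ℝ, dp = fun z => d z.1 z.2 ^ p := ⟨_, rfl⟩
  have hdp0 : ∀ z, 0 ≤ dp z := by
    intro z
    rw [hdp]
    exact Real.rpow_nonneg (hd _ _) _
  obtain ⟨Q, hQ⟩ : ∃ Q : X × X → ℝ, Q = fun z => P * (C2 * dp z) := ⟨_, rfl⟩
  have hQ0 : ∀ z, 0 ≤ Q z := by
    intro z
    have := hdp0 z
    rw [hQ]
    positivity
  have hV0 : ∀ z, ∑ i, |a z i| ^ p ≤ C2 * dp z := by
    intro z
    rw [ha, hdp]
    exact hsum z.1 z.2
  have hVQ : ∀ z, (2 * m) ^ (p - 1) * ∑ i, |a z i| ^ p ≤ Q z := by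
    intro z
    rw [← hPdef, hQ]
    exact mul_le_mul_of_nonneg_left (hV0 z) hP0.le
  have hphQ : ∀ z (h : Fin N1 → Fin B) b, phV p (a z) h b ≤ Q z := fun z h b =>
    (phV_le hp (a z) (T z) (hT0 z) (hTc z) h b).trans (hVQ z)
  obtain ⟨EV, hEV⟩ : ∃ EV : X × X → ℝ,
      EV = fun z => (∑ h : Fin N1 → Fin B, ∑ b, phV p (a z) h b) / (B : ℝ) ^ N1 := ⟨_, rfl⟩
  have hEVd : ∀ z, |EV z - ∑ i, |a z i| ^ p| ≤ ε / 2 * dp z := by
    intro z
    rw [hEV]
    refine (ph_mean hB hp (a z) (T z) (hT0 z) (by linarith) (hTc z) (hVQ z)).trans ?_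
    have h1 : (2 * m) ^ 2 / B * Q z = (4 * m ^ 2 * P * C2 / B) * dp z := by
      rw [hQ]; ring
    rw [h1]
    refine mul_le_mul_of_nonneg_right ?_ (hdp0 z)
    rw [div_le_iff₀ hBr]
    rw [div_le_iff₀ hε0] at hBl
    linarith
  -- the sample space
  let K := (Fin N1 → Fin B) × Fin B
  obtain ⟨q, hq⟩ : ∃ q : K → ℝ, q = fun _ => 1 / ((B : ℝ) ^ N1 * B) := ⟨_, rfl⟩
  obtain ⟨θ, hθ⟩ : ∃ θ : X × X → K → ℝ, θ = fun z k => phV p (a z) k.1 k.2 / Q z := ⟨_, rfl⟩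
  have hθQ : ∀ z k, Q z * θ z k = phV p (a z) k.1 k.2 := by
    intro z k
    rw [hθ]
    rcases (hQ0 z).eq_or_lt with h | h
    · have h1 := hphQ z k.1 k.2
      have h2 := phV_nonneg p (a z) k.1 k.2
      rw [← h] at h1 ⊢
      rw [zero_mul]
      linarith
    · simp only
      rw [mul_div_cancel₀ _ h.ne']
  have hsumK : ∀ F : K → ℝ, ∑ k, F k = ∑ h : Fin N1 → Fin B, ∑ b, F (h, b) := fun F =>
    Fintype.sum_prod_type F
  have hmeanEV : ∀ z, B * (Q z * ∑ k, q k * θ z k) = EV z := by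
    intro z
    have h1 : Q z * ∑ k, q k * θ z k = ∑ k : K, (1 / ((B : ℝ) ^ N1 * B)) * phV p (a z) k.1 k.2 := by
      rw [mul_sum]
      refine sum_congr rfl fun k _ => ?_
      rw [hq, ← hθQ z k]
      ring
    rw [h1, ← mul_sum, hsumK, hEV]
    simp only
    field_simp
  have hmean : ∀ z, ∑ k, q k * θ z k ≤ mm := by
    intro z
    rcases (hdp0 z).eq_or_lt with h | h
    · have hQz : Q z = 0 := by rw [hQ]; simp only [← h, mul_zero]
      have : ∑ k, q k * θ z k = 0 := by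
        refine sum_eq_zero fun k _ => ?_
        rw [hθ]
        simp only [hQz, div_zero, mul_zero]
      rw [this]
      exact hmm0.le
    · have hQz : 0 < Q z := by rw [hQ]; positivity
      have h1 := abs_le.mp (hEVd z)
      have h2 := hV0 z
      have h3 : EV z ≤ 3 / 2 * C2 * dp z := by nlinarith
      rw [← hmeanEV z] at h3
      have h4 : ∑ k, q k * θ z k ≤ (3 / 2 * C2 * dp z) / (B * Q z) := by
        rw [le_div_iff₀ (by positivity)]
        calc (∑ k, q k * θ z k) * (B * Q z) = B * (Q z * ∑ k, q k * θ z k) := by ring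
          _ ≤ _ := h3
      refine h4.trans (le_of_eq ?_)
      rw [hmm, hQ]
      field_simp
  have hq0 : ∀ k, 0 ≤ q k := by
    intro k; rw [hq]; positivity
  have hq1 : ∑ k, q k = 1 := by
    rw [hq, sum_const, card_univ, Fintype.card_prod, Fintype.card_fun, Fintype.card_fin,
      Fintype.card_fin, nsmul_eq_mul]
    push_cast
    rw [mul_one_div_cancel]
    positivity
  have hθ0 : ∀ z k, 0 ≤ θ z k := by
    intro z k
    rw [hθ]
    exact div_nonneg (phV_nonneg _ _ _ _) (hQ0 z)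
  have hθ1 : ∀ z k, θ z k ≤ 1 := by
    intro z k
    rw [hθ]
    exact div_le_one_of_le₀ (hphQ z k.1 k.2) (hQ0 z)
  obtain ⟨k, hk⟩ := sample_add q hq0 hq1 θ hθ0 hθ1 mm hmean N e he0 he1 hexp
  have hp0 : p ≠ 0 := by linarith
  refine ⟨fun x r => ((B : ℝ) / N) ^ (1 / p) *
    ∑ i ∈ univ.filter (fun i => (k r).1 i = (k r).2), g i x, ?_⟩
  intro x y
  have hterm : ∀ r, |((B : ℝ) / N) ^ (1 / p) *
      ∑ i ∈ univ.filter (fun i => (k r).1 i = (k r).2), g i x -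
      ((B : ℝ) / N) ^ (1 / p) *
      ∑ i ∈ univ.filter (fun i => (k r).1 i = (k r).2), g i y| ^ p =
      (B : ℝ) / N * (Q (x, y) * θ (x, y) (k r)) := by
    intro r
    rw [← mul_sub, ← sum_sub_distrib, abs_mul, abs_of_nonneg (by positivity),
      Real.mul_rpow (by positivity) (abs_nonneg _), ← Real.rpow_mul (by positivity),
      one_div_mul_cancel hp0, Real.rpow_one, hθQ, phV, ha]
  have h1 : ∑ r, |((B : ℝ) / N) ^ (1 / p) *
      ∑ i ∈ univ.filter (fun i => (k r).1 i = (k r).2), g i x -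
      ((B : ℝ) / N) ^ (1 / p) *
      ∑ i ∈ univ.filter (fun i => (k r).1 i = (k r).2), g i y| ^ p =
      (B : ℝ) / N * (Q (x, y) * ∑ r, θ (x, y) (k r)) := by
    rw [mul_sum, mul_sum]
    exact sum_congr rfl fun r _ => hterm r
  rw [h1]
  have h2 := hk (x, y)
  have h3 : |(B : ℝ) / N * (Q (x, y) * ∑ r, θ (x, y) (k r)) - EV (x, y)| ≤
      ε / 2 * dp (x, y) := by
    have h4 : (B : ℝ) / N * (Q (x, y) * ∑ r, θ (x, y) (k r)) - EV (x, y) =
        (B : ℝ) / N * Q (x, y) *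
          (∑ r, θ (x, y) (k r) - N * ∑ k, q k * θ (x, y) k) := by
      rw [← hmeanEV (x, y)]
      field_simp
    rw [h4, abs_mul, abs_of_nonneg (mul_nonneg (by positivity) (hQ0 _))]
    calc (B : ℝ) / N * Q (x, y) * |∑ r, θ (x, y) (k r) - N * ∑ k, q k * θ (x, y) k|
        ≤ (B : ℝ) / N * Q (x, y) * (e * (N * mm)) :=
          mul_le_mul_of_nonneg_left h2 (mul_nonneg (by positivity) (hQ0 _))
      _ = _ := by
          rw [hmm, he, hQ]
          field_simp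
  have h5 := hEVd (x, y)
  have h6 : ∑ i, |g i x - g i y| ^ p = ∑ i, |a (x, y) i| ^ p := by rw [ha]
  have h7 : d x y ^ p = dp (x, y) := by rw [hdp]
  rw [h6, h7]
  calc |(B : ℝ) / N * (Q (x, y) * ∑ r, θ (x, y) (k r)) - ∑ i, |a (x, y) i| ^ p|
      = |((B : ℝ) / N * (Q (x, y) * ∑ r, θ (x, y) (k r)) - EV (x, y)) +
        (EV (x, y) - ∑ i, |a (x, y) i| ^ p)| := by ring_nf
    _ ≤ _ := abs_add_le _ _
    _ ≤ ε / 2 * dp (x, y) + ε / 2 * dp (x, y) := add_le_add h3 h5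
    _ = ε * dp (x, y) := by ring


/-- If every point is active in at most `m` of the functions `g i`, random hashing into
`poly(m)` buckets keeps all the `p`-th powers of the distances up to `ε d^p`. -/
theorem part_hash {X : Type} [Fintype X] [DecidableEq X] {p : ℝ} (hp : 1 ≤ p)
    (d : X → X → ℝ) (hd : ∀ x y, 0 ≤ d x y) {N1 : ℕ} (g : Fin N1 → X → ℝ) (m C2 ε : ℝ)
    (hm : 1 ≤ m) (hC2 : 1 ≤ C2) (hε0 : 0 < ε) (hε1 : ε ≤ 1)
    (hact : ∀ x, ((univ.filter (fun i => g i x ≠ 0)).card : ℝ) ≤ m)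
    (hsum : ∀ x y, ∑ i, |g i x - g i y| ^ p ≤ C2 * d x y ^ p) :
    ∃ (N : ℕ) (G : X → Fin N → ℝ),
      (N : ℝ) ≤ 100000 * C2 ^ 3 * (2 * m) ^ (2 * p) * Real.log (Fintype.card X + 2) / ε ^ 3 ∧
      ∀ x y, |∑ k, |G x k - G y k| ^ p - ∑ i, |g i x - g i y| ^ p| ≤ ε * d x y ^ p := by
  -- constants
  obtain ⟨L, hLdef⟩ : ∃ L : ℝ, L = Real.log (Fintype.card X + 2) := ⟨_, rfl⟩
  have hcX : (0 : ℝ) ≤ Fintype.card X := Nat.cast_nonneg _
  have hL : 1 / 2 ≤ L := by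
    have h1 : Real.log 2 ≤ L := by
      rw [hLdef]
      exact Real.log_le_log (by norm_num) (by linarith)
    have := Real.log_two_gt_d9
    linarith
  obtain ⟨P, hPdef⟩ : ∃ P : ℝ, P = (2 * m) ^ (p - 1) := ⟨_, rfl⟩
  have hP1 : 1 ≤ P := by
    rw [hPdef]
    exact Real.one_le_rpow (by linarith) (by linarith)
  have hm0 : 0 < m := by linarith
  have hP0 : 0 < P := by linarith
  have hC20 : 0 < C2 := by linarith
  have hbase : 8 ≤ 8 * m ^ 2 * P * C2 / ε := by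
    rw [le_div_iff₀ hε0]
    have h1 : 1 ≤ m ^ 2 := one_le_pow₀ hm
    have h2 : 1 ≤ m ^ 2 * P := one_le_mul_of_one_le_of_one_le h1 hP1
    have h3 : 1 ≤ m ^ 2 * P * C2 := one_le_mul_of_one_le_of_one_le h2 hC2
    nlinarith
  obtain ⟨B, hB, hBl, hBu⟩ : ∃ B : ℕ, 0 < B ∧ 8 * m ^ 2 * P * C2 / ε ≤ B ∧
      (B : ℝ) ≤ 9 * m ^ 2 * P * C2 / ε := by
    refine ⟨⌈8 * m ^ 2 * P * C2 / ε⌉₊, Nat.ceil_pos.mpr (by linarith), Nat.le_ceil _, ?_⟩
    have h1 := (Nat.ceil_lt_add_one (by linarith : 0 ≤ 8 * m ^ 2 * P * C2 / ε)).le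
    have h2 : 9 * m ^ 2 * P * C2 / ε = 9 / 8 * (8 * m ^ 2 * P * C2 / ε) := by ring
    rw [h2]
    linarith
  have hBr : (0 : ℝ) < B := by exact_mod_cast hB
  have hBN : (0 : ℝ) < (B : ℝ) ^ N1 := by positivity
  obtain ⟨mm, hmm⟩ : ∃ mm : ℝ, mm = 3 / 2 / (B * P) := ⟨_, rfl⟩
  have hmm0 : 0 < mm := by rw [hmm]; positivity
  obtain ⟨e, he⟩ : ∃ e : ℝ, e = ε / (3 * C2) := ⟨_, rfl⟩
  have he0 : 0 < e := by rw [he]; positivity
  have he1 : e ≤ 1 := by
    rw [he, div_le_one (by positivity)]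
    linarith
  have hbN : 0 < 12 * L / (e ^ 2 * mm) := by
    have : 0 < L := by linarith
    positivity
  obtain ⟨N, hN, hNl, hNu⟩ : ∃ N : ℕ, 0 < N ∧ 12 * L / (e ^ 2 * mm) ≤ N ∧
      (N : ℝ) ≤ 12 * L / (e ^ 2 * mm) + 1 :=
    ⟨⌈12 * L / (e ^ 2 * mm)⌉₊, Nat.ceil_pos.mpr hbN, Nat.le_ceil _,
      (Nat.ceil_lt_add_one hbN.le).le⟩
  have hNr : (0 : ℝ) < N := by exact_mod_cast hN
  have hexp : 2 * (Fintype.card (X × X) : ℝ) * Real.exp (-(e ^ 2 / 4) * (N * mm)) < 1 := by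
    have h1 : 3 * L ≤ e ^ 2 / 4 * (N * mm) := by
      rw [div_le_iff₀ (by positivity)] at hNl
      linarith
    have h2 : Real.exp (-(e ^ 2 / 4) * (N * mm)) ≤ Real.exp (-(3 * L)) := by
      apply Real.exp_le_exp.mpr
      linarith
    have h3 : Real.exp (-(3 * L)) = 1 / ((Fintype.card X : ℝ) + 2) ^ 3 := by
      rw [Real.exp_neg, show (3 : ℝ) * L = ((3 : ℕ) : ℝ) * L by norm_num, Real.exp_nat_mul, hLdef,
        Real.exp_log (by linarith), one_div]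
    rw [h3] at h2
    rw [Fintype.card_prod]
    push_cast
    have h4 : 0 < ((Fintype.card X : ℝ) + 2) ^ 3 := by positivity
    calc 2 * ((Fintype.card X : ℝ) * Fintype.card X) * Real.exp (-(e ^ 2 / 4) * (N * mm))
        ≤ 2 * ((Fintype.card X : ℝ) * Fintype.card X) *
          (1 / ((Fintype.card X : ℝ) + 2) ^ 3) := mul_le_mul_of_nonneg_left h2 (by positivity)
      _ < 1 := by
          rw [mul_one_div, div_lt_one h4]
          nlinarith [mul_nonneg hcX hcX, mul_nonneg (mul_nonneg hcX hcX) hcX]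
  obtain ⟨G, hG⟩ := ph_core hp d hd g m C2 ε hm hC2 hε0 hact hsum P hPdef hP1 B hB hBl mm hmm e he
    he0 he1 N hN hexp hε1
  refine ⟨N, G, ?_, hG⟩
  rw [← hLdef]
  exact ph_number hm hC2 hε0 hε1 hPdef hP1 hB hBu hmm he hL hNu

end Vale.Agent.P249C
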