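import Mathlib
import Vale.Agent.Lib.P249C.SampleAdd

/-!
P249C, module PART1: sampling the coordinates of a part.
-/

open Finset

namespace Vale.Agent.P249C

/-- Sampling coordinates with probabilities proportional to `S`: distances are kept up to
`ε d^p`, and every point is active in few samples. -/
theorem part_sample {X Ω : Type} [Fintype X] [DecidableEq X] [Fintype Ω] {p : ℝ} (hp : 1 ≤ p)
    (d : X → X → ℝ) (hd : ∀ x y, 0 ≤ d x y) (f : Ω → X → ℝ) (S : Ω → ℝ) (hS : ∀ ω, 0 ≤ S ω)
    (hlip : ∀ ω x y, |f ω x - f ω y| ^ p ≤ S ω * d x y ^ p) (K C1 ε : ℝ) (hK : 1 ≤ K)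
    (hC1 : 1 ≤ C1) (hε0 : 0 < ε) (hε1 : ε ≤ 1)
    (hload : ∀ x, ∑ ω, (if f ω x = 0 then 0 else S ω) ≤ K)
    (hsum : ∀ x y, ∑ ω, |f ω x - f ω y| ^ p ≤ C1 * d x y ^ p) :
    ∃ (N1 : ℕ) (g : Fin N1 → X → ℝ),
      (∀ x y, |∑ i, |g i x - g i y| ^ p - ∑ ω, |f ω x - f ω y| ^ p| ≤ ε * d x y ^ p) ∧
      ∀ x, ((univ.filter (fun i => g i x ≠ 0)).card : ℝ) ≤
        100 * K ^ 2 * C1 ^ 2 * Real.log (Fintype.card X + 2) / ε ^ 2 := by
  classical
  have hp0 : 0 < p := by linarith
  have hterm : ∀ ω x y, 0 ≤ |f ω x - f ω y| ^ p := fun ω x y => Real.rpow_nonneg (abs_nonneg _) _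
  have hdp : ∀ x y, 0 ≤ d x y ^ p := fun x y => Real.rpow_nonneg (hd x y) _
  set Stot : ℝ := ∑ ω, S ω with hStot
  have hStot0 : 0 ≤ Stot := Finset.sum_nonneg fun ω _ => hS ω
  set S1 : ℝ := max Stot 1 with hS1
  have hS11 : 1 ≤ S1 := le_max_right _ _
  have hS1p : 0 < S1 := by linarith
  have hSS1 : Stot ≤ S1 := le_max_left _ _
  have hKC : 1 ≤ K * C1 := one_le_mul_of_one_le_of_one_le hK hC1
  -- the law
  let q : Option Ω → ℝ := fun k => k.elim (1 - Stot / S1) (fun ω => S ω / S1)
  have hq0 : ∀ k, 0 ≤ q k := by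
    intro k
    cases k with
    | none =>
      change 0 ≤ 1 - Stot / S1
      rw [sub_nonneg, div_le_one hS1p]
      exact hSS1
    | some ω => exact div_nonneg (hS ω) hS1p.le
  have hq1 : ∑ k, q k = 1 := by
    rw [Fintype.sum_option]
    change (1 - Stot / S1) + ∑ ω, S ω / S1 = 1
    rw [← Finset.sum_div, ← hStot]
    ring
  -- the tests
  let θ : (X × X) ⊕ X → Option Ω → ℝ := fun i k => k.elim 0 (fun ω =>
    Sum.elim (fun e : X × X => |f ω e.1 - f ω e.2| ^ p / (S ω * d e.1 e.2 ^ p))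
      (fun x : X => if f ω x = 0 ∨ S ω = 0 then (0 : ℝ) else 1) i)
  have hθ0 : ∀ i k, 0 ≤ θ i k := by
    intro i k
    cases k with
    | none => exact le_rfl
    | some ω =>
      cases i with
      | inl e => exact div_nonneg (hterm _ _ _) (mul_nonneg (hS ω) (hdp _ _))
      | inr x =>
        change (0 : ℝ) ≤ if f ω x = 0 ∨ S ω = 0 then (0 : ℝ) else 1
        split_ifs <;> norm_num
  have hθ1 : ∀ i k, θ i k ≤ 1 := by
    intro i k
    cases k with
    | none => exact zero_le_one
    | some ω =>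
      cases i with
      | inl e => exact div_le_one_of_le₀ (hlip _ _ _) (mul_nonneg (hS ω) (hdp _ _))
      | inr x =>
        change (if f ω x = 0 ∨ S ω = 0 then (0 : ℝ) else 1) ≤ 1
        split_ifs <;> norm_num
  -- S * θ for pairs
  have hval : ∀ ω x y, S ω * d x y ^ p * (|f ω x - f ω y| ^ p / (S ω * d x y ^ p)) =
      |f ω x - f ω y| ^ p := by
    intro ω x y
    by_cases h0 : S ω * d x y ^ p = 0
    · rw [h0, zero_mul]
      have h1 := hlip ω x y
      rw [h0] at h1
      exact (le_antisymm h1 (hterm _ _ _)).symm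
    · rw [mul_div_cancel₀ _ h0]
  have hmpair : ∀ x y, (∑ k, q k * θ (Sum.inl (x, y)) k) * (S1 * d x y ^ p) =
      ∑ ω, |f ω x - f ω y| ^ p := by
    intro x y
    rw [Fintype.sum_option]
    change ((1 - Stot / S1) * 0 + ∑ ω, S ω / S1 * (|f ω x - f ω y| ^ p / (S ω * d x y ^ p))) *
      (S1 * d x y ^ p) = _
    rw [mul_zero, zero_add, Finset.sum_mul]
    refine Finset.sum_congr rfl fun ω _ => ?_
    have e : S ω / S1 * (|f ω x - f ω y| ^ p / (S ω * d x y ^ p)) * (S1 * d x y ^ p) =
        (S1 / S1) * (S ω * d x y ^ p * (|f ω x - f ω y| ^ p / (S ω * d x y ^ p))) := by ring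
    rw [e, div_self hS1p.ne', one_mul, hval]
  set m : ℝ := K * C1 / S1 with hm
  have hm0 : 0 < m := by positivity
  have hmle : m ≤ K * C1 := by
    rw [hm, div_le_iff₀ hS1p]
    nlinarith
  have hmean : ∀ i, ∑ k, q k * θ i k ≤ m := by
    intro i
    cases i with
    | inl e =>
      obtain ⟨x, y⟩ := e
      rcases (hdp x y).eq_or_lt with h0 | h0
      · have h1 : ∑ k, q k * θ (Sum.inl (x, y)) k = 0 := by
          apply Finset.sum_eq_zero
          intro k _
          cases k with
          | none => exact mul_zero _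
          | some ω =>
            change q (some ω) * (|f ω x - f ω y| ^ p / (S ω * d x y ^ p)) = 0
            rw [← h0, mul_zero, div_zero, mul_zero]
        rw [h1]; exact hm0.le
      · have h1 := hmpair x y
        have h2 := hsum x y
        have h3 : 0 < S1 * d x y ^ p := mul_pos hS1p h0
        have h4 : ∑ k, q k * θ (Sum.inl (x, y)) k ≤ C1 / S1 := by
          rw [← mul_le_mul_iff_left₀ h3, h1]
          refine h2.trans (le_of_eq ?_)
          field_simp
        refine h4.trans ?_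
        rw [hm]
        apply div_le_div_of_nonneg_right _ hS1p.le
        nlinarith
    | inr x =>
      have h1 : ∑ k, q k * θ (Sum.inr x) k ≤ K / S1 := by
        rw [Fintype.sum_option]
        change (1 - Stot / S1) * 0 + ∑ ω, S ω / S1 * (if f ω x = 0 ∨ S ω = 0 then (0 : ℝ) else 1) ≤
          K / S1
        rw [mul_zero, zero_add]
        have h2 : ∀ ω ∈ (Finset.univ : Finset Ω),
            S ω / S1 * (if f ω x = 0 ∨ S ω = 0 then (0 : ℝ) else 1) ≤
              (if f ω x = 0 then 0 else S ω) / S1 := by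
          intro ω _
          by_cases h3 : f ω x = 0
          · simp [h3]
          · by_cases h4 : S ω = 0
            · simp [h3, h4]
            · simp [h3, h4]
        refine (Finset.sum_le_sum h2).trans ?_
        rw [← Finset.sum_div]
        exact div_le_div_of_nonneg_right (hload x) hS1p.le
      refine h1.trans ?_
      rw [hm]
      apply div_le_div_of_nonneg_right _ hS1p.le
      nlinarith
  -- the number of samples
  set n : ℝ := (Fintype.card X : ℝ) with hn
  have hn0 : 0 ≤ n := Nat.cast_nonneg _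
  have hlog : 0 < Real.log (n + 2) := Real.log_pos (by linarith)
  have hlog2 : 1 / 2 ≤ Real.log (n + 2) := by
    have h1 : Real.log 2 ≤ Real.log (n + 2) := Real.log_le_log (by norm_num) (by linarith)
    have h2 := Real.log_two_gt_d9
    linarith
  set ε' : ℝ := ε / (K * C1) with hε'
  have hε'0 : 0 < ε' := by positivity
  have hε'1 : ε' ≤ 1 := by
    rw [hε', div_le_one (by positivity)]; linarith
  set A : ℝ := 12 / ε' ^ 2 * Real.log (n + 2) with hA
  have hA0 : 0 < A := by positivity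
  set N : ℕ := ⌊A / m⌋₊ + 1 with hN
  have hNA : A < N * m := by
    have h1 := Nat.lt_floor_add_one (A / m)
    rw [div_lt_iff₀ hm0] at h1
    rw [hN]
    push_cast
    exact h1
  have hNA2 : N * m ≤ A + m := by
    have h1 := Nat.floor_le (show 0 ≤ A / m by positivity)
    rw [le_div_iff₀ hm0] at h1
    rw [hN]
    push_cast
    linarith
  have hNpos : (0 : ℝ) < N := by
    rw [hN]; positivity
  have hcond : 2 * (Fintype.card ((X × X) ⊕ X) : ℝ) * Real.exp (-(ε' ^ 2 / 4) * (N * m)) < 1 := by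
    have h1 : (Fintype.card ((X × X) ⊕ X) : ℝ) = n ^ 2 + n := by
      rw [Fintype.card_sum, Fintype.card_prod]
      push_cast
      rw [← hn]; ring
    rw [h1]
    have h2 : Real.exp (-(ε' ^ 2 / 4) * (N * m)) ≤ ((n + 2) ^ 3)⁻¹ := by
      have h3 : -(ε' ^ 2 / 4) * (N * m) ≤ -(3 * Real.log (n + 2)) := by
        have h4 : ε' ^ 2 / 4 * A = 3 * Real.log (n + 2) := by
          rw [hA]; field_simp; ring
        have h5 : ε' ^ 2 / 4 * A ≤ ε' ^ 2 / 4 * (N * m) :=
          mul_le_mul_of_nonneg_left hNA.le (by positivity)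
        linarith
      calc Real.exp (-(ε' ^ 2 / 4) * (N * m)) ≤ Real.exp (-(3 * Real.log (n + 2))) :=
            Real.exp_le_exp.2 h3
        _ = ((n + 2) ^ 3)⁻¹ := by
            rw [Real.exp_neg, show 3 * Real.log (n + 2) = ((3 : ℕ) : ℝ) * Real.log (n + 2) by
              norm_num, Real.exp_nat_mul, Real.exp_log (by linarith)]
    have h3 : 0 < (n + 2) ^ 3 := by positivity
    calc 2 * (n ^ 2 + n) * Real.exp (-(ε' ^ 2 / 4) * (N * m))
        ≤ 2 * (n ^ 2 + n) * ((n + 2) ^ 3)⁻¹ := mul_le_mul_of_nonneg_left h2 (by positivity)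
      _ < 1 := by
          rw [← div_eq_mul_inv, div_lt_one h3]
          nlinarith [pow_nonneg hn0 3, pow_nonneg hn0 2]
  obtain ⟨κ, hκ⟩ := sample_add q hq0 hq1 θ hθ0 hθ1 m hmean N ε' hε'0 hε'1 hcond
  -- the coordinates
  let g : Fin N → X → ℝ := fun r x => (κ r).elim 0 (fun ω => (S1 / (N * S ω)) ^ (1 / p) * f ω x)
  have hgterm : ∀ r x y, |g r x - g r y| ^ p = S1 * d x y ^ p / N * θ (Sum.inl (x, y)) (κ r) := by
    intro r x y
    simp only [g]
    cases hr : κ r with
    | none =>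
      change |(0 : ℝ) - 0| ^ p = S1 * d x y ^ p / N * 0
      rw [sub_zero, abs_zero, Real.zero_rpow hp0.ne', mul_zero]
    | some ω =>
      change |(S1 / (N * S ω)) ^ (1 / p) * f ω x - (S1 / (N * S ω)) ^ (1 / p) * f ω y| ^ p =
        S1 * d x y ^ p / N * (|f ω x - f ω y| ^ p / (S ω * d x y ^ p))
      have hnn : 0 ≤ S1 / (N * S ω) := div_nonneg hS1p.le (mul_nonneg hNpos.le (hS ω))
      rw [← mul_sub, abs_mul, Real.mul_rpow (abs_nonneg _) (abs_nonneg _),
        abs_of_nonneg (Real.rpow_nonneg hnn _), ← Real.rpow_mul hnn, one_div,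
        inv_mul_cancel₀ hp0.ne', Real.rpow_one]
      by_cases h0 : S ω * d x y ^ p = 0
      · have h1 := hval ω x y
        rw [h0, zero_mul] at h1
        rw [← h1, mul_zero, zero_div, mul_zero]
      · have hS0 : S ω ≠ 0 := left_ne_zero_of_mul h0
        have hd0 : d x y ^ p ≠ 0 := right_ne_zero_of_mul h0
        field_simp
  refine ⟨N, g, fun x y => ?_, fun x => ?_⟩
  · rw [Finset.sum_congr rfl fun r _ => hgterm r x y, ← Finset.mul_sum]
    have h1 := hκ (Sum.inl (x, y))
    have h2 := hmpair x y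
    have h3 : S1 * d x y ^ p / N * ∑ r, θ (Sum.inl (x, y)) (κ r) - ∑ ω, |f ω x - f ω y| ^ p =
        S1 * d x y ^ p / N * (∑ r, θ (Sum.inl (x, y)) (κ r) -
          N * ∑ k, q k * θ (Sum.inl (x, y)) k) := by
      rw [← h2]
      field_simp
    rw [h3, abs_mul, abs_of_nonneg (div_nonneg (mul_nonneg hS1p.le (hdp x y)) hNpos.le)]
    calc S1 * d x y ^ p / N * |∑ r, θ (Sum.inl (x, y)) (κ r) -
          N * ∑ k, q k * θ (Sum.inl (x, y)) k| ≤ S1 * d x y ^ p / N * (ε' * (N * m)) :=
          mul_le_mul_of_nonneg_left h1 (div_nonneg (mul_nonneg hS1p.le (hdp x y)) hNpos.le)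
      _ = ε * d x y ^ p := by
          rw [hε', hm]
          field_simp
  · have h1 := hκ (Sum.inr x)
    have h2 : ((univ.filter (fun i => g i x ≠ 0)).card : ℝ) ≤ ∑ r, θ (Sum.inr x) (κ r) := by
      rw [Finset.card_filter]
      push_cast
      refine Finset.sum_le_sum fun r _ => ?_
      by_cases hg : g r x ≠ 0
      · rw [if_pos hg]
        simp only [g] at hg
        cases hr : κ r with
        | none =>
          rw [hr] at hg
          exact absurd rfl hg
        | some ω =>
          rw [hr] at hg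
          change (S1 / (N * S ω)) ^ (1 / p) * f ω x ≠ 0 at hg
          change (1 : ℝ) ≤ if f ω x = 0 ∨ S ω = 0 then (0 : ℝ) else 1
          have hf0 : f ω x ≠ 0 := right_ne_zero_of_mul hg
          have hS0 : S ω ≠ 0 := by
            intro h
            apply left_ne_zero_of_mul hg
            rw [h, mul_zero, div_zero, Real.zero_rpow]
            rw [one_div]
            exact inv_ne_zero hp0.ne'
          rw [if_neg (not_or.2 ⟨hf0, hS0⟩)]
      · rw [if_neg hg]
        exact hθ0 _ _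
    have h3 : ∑ r, θ (Sum.inr x) (κ r) ≤ 2 * (N * m) := by
      have h4 := (abs_le.1 h1).2
      have h5 : N * ∑ k, q k * θ (Sum.inr x) k ≤ N * m :=
        mul_le_mul_of_nonneg_left (hmean _) hNpos.le
      have h6 : ε' * (N * m) ≤ 1 * (N * m) :=
        mul_le_mul_of_nonneg_right hε'1 (by positivity)
      linarith
    refine h2.trans (h3.trans ?_)
    have h7 : A = 12 * (K * C1) ^ 2 * Real.log (n + 2) / ε ^ 2 := by
      rw [hA, hε']
      field_simp
    have h8 : K * C1 ≤ (K * C1) ^ 2 * (2 * Real.log (n + 2)) / ε ^ 2 := by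
      rw [le_div_iff₀ (by positivity)]
      have h9 : ε ^ 2 ≤ 1 := pow_le_one₀ hε0.le hε1
      have h10 : 1 ≤ 2 * Real.log (n + 2) := by linarith
      have h11 : K * C1 ≤ (K * C1) ^ 2 := by nlinarith
      calc K * C1 * ε ^ 2 ≤ (K * C1) ^ 2 * 1 := mul_le_mul h11 h9 (by positivity) (by positivity)
        _ ≤ (K * C1) ^ 2 * (2 * Real.log (n + 2)) :=
            mul_le_mul_of_nonneg_left h10 (by positivity)
    have h12 : 0 ≤ (K * C1) ^ 2 * Real.log (n + 2) / ε ^ 2 := by positivity
    calc 2 * (N * m) ≤ 2 * (A + K * C1) := by linarith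
      _ ≤ 2 * (12 * (K * C1) ^ 2 * Real.log (n + 2) / ε ^ 2 +
          (K * C1) ^ 2 * (2 * Real.log (n + 2)) / ε ^ 2) := by
          rw [← h7]
          linarith
      _ = 28 * ((K * C1) ^ 2 * Real.log (n + 2) / ε ^ 2) := by ring
      _ ≤ 100 * ((K * C1) ^ 2 * Real.log (n + 2) / ε ^ 2) := by linarith
      _ = 100 * K ^ 2 * C1 ^ 2 * Real.log (n + 2) / ε ^ 2 := by ring

end Vale.Agent.P249C
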