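import Mathlib
import Vale.Agent.Lib.P249C.PartSample
import Vale.Agent.Lib.P249C.PartHash

/-!
P249C, module PART3: the part lemma.
-/

open Finset

namespace Vale.Agent.P249C

/-- bookkeeping of the constants in the part lemma -/
theorem part_const {p K C1 L ε m N : ℝ} (hp : 1 ≤ p) (hK : 1 ≤ K) (hC1 : 1 ≤ C1)
    (hL : 1 / 2 ≤ L) (hε0 : 0 < ε) (hε1 : ε ≤ 1) (hm0 : 0 ≤ m)
    (hm : m = 100 * K ^ 2 * C1 ^ 2 * L / (ε / 2) ^ 2)
    (hN : N ≤ 100000 * (2 * C1) ^ 3 * (2 * m) ^ (2 * p) * L / (ε / 2) ^ 3) :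
    N ≤ ((2 * (6400000 * (400 : ℝ) ^ (2 * p)) + (4 * p + 3)) * K * C1 * L / ε) ^
      (2 * (6400000 * (400 : ℝ) ^ (2 * p)) + (4 * p + 3)) := by
  set A := 2 * L * (K * C1 / ε) with hA
  have h1ε : 1 ≤ 1 / ε := by rw [le_div_iff₀ hε0]; linarith
  have hKC : 1 ≤ K * C1 := by nlinarith
  have hq : 1 ≤ K * C1 / ε := by
    rw [le_div_iff₀ hε0]; linarith
  have hA1 : 1 ≤ A := by
    rw [hA]; nlinarith
  have hqA : K * C1 / ε ≤ A := by
    rw [hA]
    nlinarith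
  have hLq : L * (K * C1 / ε) = A / 2 := by rw [hA]; ring
  have hA0 : 0 ≤ A := by linarith
  have hmA : 2 * m ≤ 400 * A ^ 2 := by
    have e : m = 400 * ((K * C1 / ε) * (L * (K * C1 / ε))) := by
      rw [hm]
      field_simp
      ring
    rw [e, hLq]
    have : K * C1 / ε * (A / 2) ≤ A * (A / 2) := mul_le_mul_of_nonneg_right hqA (by linarith)
    nlinarith
  have hpow : (2 * m) ^ (2 * p) ≤ (400 : ℝ) ^ (2 * p) * A ^ (4 * p) := by
    calc (2 * m) ^ (2 * p) ≤ (400 * A ^ 2) ^ (2 * p) :=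
          Real.rpow_le_rpow (by linarith) hmA (by linarith)
      _ = (400 : ℝ) ^ (2 * p) * (A ^ 2) ^ (2 * p) :=
          Real.mul_rpow (by norm_num) (by positivity)
      _ = (400 : ℝ) ^ (2 * p) * A ^ (4 * p) := by
          rw [← Real.rpow_natCast A 2, ← Real.rpow_mul hA0]
          congr 2
          push_cast
          ring
  have hC1ε : C1 / ε ≤ K * C1 / ε := by
    apply div_le_div_of_nonneg_right _ hε0.le
    nlinarith
  have hc0 : 0 ≤ C1 / ε := by positivity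
  have hcube : C1 ^ 3 * L / ε ^ 3 ≤ A ^ 3 := by
    have e : C1 ^ 3 * L / ε ^ 3 = (C1 / ε) * (C1 / ε) * (L * (C1 / ε)) := by
      field_simp
    rw [e]
    have h1 : C1 / ε ≤ A := hC1ε.trans hqA
    have h2 : L * (C1 / ε) ≤ A := by
      have := mul_le_mul_of_nonneg_left hC1ε (by linarith : (0 : ℝ) ≤ L)
      linarith
    calc (C1 / ε) * (C1 / ε) * (L * (C1 / ε)) ≤ A * A * A := by
          apply mul_le_mul _ h2 (by positivity) (by positivity)
          exact mul_le_mul h1 h1 hc0 hA0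
      _ = A ^ 3 := by ring
  have hNA : N ≤ 6400000 * (400 : ℝ) ^ (2 * p) * A ^ (4 * p + 3) := by
    refine hN.trans ?_
    have e : 100000 * (2 * C1) ^ 3 * (2 * m) ^ (2 * p) * L / (ε / 2) ^ 3
        = 6400000 * ((2 * m) ^ (2 * p) * (C1 ^ 3 * L / ε ^ 3)) := by
      field_simp
      ring
    rw [e, Real.rpow_add (by linarith)]
    have h3 : A ^ (3 : ℝ) = A ^ 3 := by
      rw [← Real.rpow_natCast A 3]
      norm_num
    rw [h3]
    have h4 : (2 * m) ^ (2 * p) * (C1 ^ 3 * L / ε ^ 3)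
        ≤ ((400 : ℝ) ^ (2 * p) * A ^ (4 * p)) * A ^ 3 := by
      apply mul_le_mul hpow hcube (by positivity) (by positivity)
    calc 6400000 * ((2 * m) ^ (2 * p) * (C1 ^ 3 * L / ε ^ 3))
        ≤ 6400000 * (((400 : ℝ) ^ (2 * p) * A ^ (4 * p)) * A ^ 3) :=
          mul_le_mul_of_nonneg_left h4 (by norm_num)
      _ = _ := by ring
  set D := 6400000 * (400 : ℝ) ^ (2 * p) with hD
  have hD1 : 1 ≤ D := by
    rw [hD]
    have : (1 : ℝ) ≤ (400 : ℝ) ^ (2 * p) := Real.one_le_rpow (by norm_num) (by linarith)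
    linarith
  set c := 2 * D + (4 * p + 3) with hc
  have hcA : c * K * C1 * L / ε = (c / 2) * A := by rw [hA]; ring
  rw [hcA, Real.mul_rpow (by linarith) hA0]
  refine hNA.trans ?_
  have h5 : D ≤ (c / 2) ^ c := by
    calc D ≤ c / 2 := by linarith
      _ = (c / 2) ^ (1 : ℝ) := (Real.rpow_one _).symm
      _ ≤ (c / 2) ^ c := Real.rpow_le_rpow_of_exponent_le (by linarith) (by linarith)
  have h6 : A ^ (4 * p + 3) ≤ A ^ c := Real.rpow_le_rpow_of_exponent_le hA1 (by linarith)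
  exact mul_le_mul h5 h6 (by positivity) (by positivity)

/-- The part lemma: combine `part_sample` (with `ε/2`) and `part_hash` (with `ε/2`). -/
theorem part_lemma (p : ℝ) (hp : 1 ≤ p) : ∃ c : ℝ, 1 ≤ c ∧
    ∀ (X Ω : Type) [Fintype X] [DecidableEq X] [Fintype Ω]
    (d : X → X → ℝ) (_ : ∀ x y, 0 ≤ d x y) (f : Ω → X → ℝ) (S : Ω → ℝ) (_ : ∀ ω, 0 ≤ S ω)
    (_ : ∀ ω x y, |f ω x - f ω y| ^ p ≤ S ω * d x y ^ p) (K C1 ε : ℝ) (_ : 1 ≤ K)
    (_ : 1 ≤ C1) (_ : 0 < ε) (_ : ε ≤ 1)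
    (_ : ∀ x, ∑ ω, (if f ω x = 0 then 0 else S ω) ≤ K)
    (_ : ∀ x y, ∑ ω, |f ω x - f ω y| ^ p ≤ C1 * d x y ^ p),
    ∃ (N : ℕ) (G : X → Fin N → ℝ),
      (N : ℝ) ≤ (c * K * C1 * Real.log (Fintype.card X + 2) / ε) ^ c ∧
      ∀ x y, |∑ k, |G x k - G y k| ^ p - ∑ ω, |f ω x - f ω y| ^ p| ≤ ε * d x y ^ p := by
  refine ⟨2 * (6400000 * (400 : ℝ) ^ (2 * p)) + (4 * p + 3), ?_, ?_⟩
  · have : (0 : ℝ) ≤ (400 : ℝ) ^ (2 * p) := by positivity
    linarith
  intro X Ω _ _ _ d hd f S hS hlip K C1 ε hK hC1 hε0 hε1 hload hsum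
  obtain ⟨N1, g, hg, hact⟩ := part_sample hp d hd f S hS hlip K C1 (ε / 2) hK hC1 (by linarith)
    (by linarith) hload hsum
  set L := Real.log (Fintype.card X + 2) with hLdef
  have hL : 1 / 2 ≤ L := by
    have h1 : Real.log 2 ≤ L := by
      apply Real.log_le_log (by norm_num)
      have : (0 : ℝ) ≤ Fintype.card X := Nat.cast_nonneg _
      linarith
    have h2 := Real.log_two_gt_d9
    linarith
  obtain ⟨m, hm⟩ : ∃ m, m = 100 * K ^ 2 * C1 ^ 2 * L / (ε / 2) ^ 2 := ⟨_, rfl⟩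
  have hm1 : 1 ≤ m := by
    rw [hm, le_div_iff₀ (by positivity)]
    have h1 : (ε / 2) ^ 2 ≤ 1 := by nlinarith
    have h2 : 1 ≤ K ^ 2 := by nlinarith
    have h3 : 1 ≤ C1 ^ 2 := by nlinarith
    have h4 : 1 ≤ K ^ 2 * C1 ^ 2 := by nlinarith
    nlinarith
  have hdp : ∀ x y, 0 ≤ d x y ^ p := fun x y => Real.rpow_nonneg (hd x y) p
  obtain ⟨N, G, hN, hG⟩ := part_hash hp d hd g m (2 * C1) (ε / 2) hm1 (by linarith) (by linarith)
    (by linarith) (fun x => by rw [hm]; exact hact x) (fun x y => by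
      have h1 := (abs_le.1 (hg x y)).2
      have h2 := hsum x y
      have h3 := hdp x y
      nlinarith)
  refine ⟨N, G, part_const hp hK hC1 hL hε0 hε1 (by linarith) hm hN, fun x y => ?_⟩
  have h1 := hG x y
  have h2 := hg x y
  have h3 := abs_sub_le (∑ k, |G x k - G y k| ^ p) (∑ i, |g i x - g i y| ^ p)
    (∑ ω, |f ω x - f ω y| ^ p)
  linarith

end Vale.Agent.P249C
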