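import Mathlib

/-!
P249C, module NEARADD: averaging over windows of thresholds is nearly additive for `p`-th powers.
-/

open Finset

namespace Vale.Agent.P249C

/-- window averages: `vb 0 = δ 0`, and `vb l` is the average of `δ` over the window
`{(l-1)MJ + sJ + i : 1 ≤ i ≤ J}` -/
noncomputable def vb (M J : ℕ) (δ : ℕ → ℝ) (s l : ℕ) : ℝ :=
  if l = 0 then δ 0 else (∑ i ∈ range J, δ ((l - 1) * (M * J) + s * J + i + 1)) / J

/-- sum of the `p`-th powers of the parts -/
noncomputable def parts (p : ℝ) (M J Lv : ℕ) (δ : ℕ → ℝ) (s : ℕ) : ℝ :=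
  ∑ l ∈ range Lv, |vb M J δ s l - vb M J δ s (l + 1)| ^ p + |vb M J δ s Lv| ^ p

/-- `||a+b|^p - |a|^p| ≤ η |a|^p + C |b|^p`. -/
theorem near_add_elem (p : ℝ) (hp : 1 ≤ p) (η : ℝ) (hη : 0 < η) :
    ∃ C : ℝ, 1 ≤ C ∧ ∀ a b : ℝ, |(|a + b| ^ p - |a| ^ p)| ≤ η * |a| ^ p + C * |b| ^ p := by
  have hp0 : 0 < p := by linarith
  set κ : ℝ := min (1 / 2) (Real.log (1 + η) / p) with hκ
  have hlog : 0 < Real.log (1 + η) := Real.log_pos (by linarith)
  have hκ0 : 0 < κ := lt_min (by norm_num) (div_pos hlog hp0)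
  have hκ1 : κ ≤ 1 / 2 := min_le_left _ _
  have hκ2 : p * κ ≤ Real.log (1 + η) := by
    have : κ ≤ Real.log (1 + η) / p := min_le_right _ _
    calc p * κ ≤ p * (Real.log (1 + η) / p) := by gcongr
      _ = _ := by field_simp
  have hup : (1 + κ) ^ p ≤ 1 + η := by
    calc (1 + κ) ^ p ≤ (Real.exp κ) ^ p := by
          apply Real.rpow_le_rpow (by linarith) _ hp0.le
          linarith [Real.add_one_le_exp κ]
      _ = Real.exp (κ * p) := by rw [← Real.exp_mul]
      _ ≤ Real.exp (Real.log (1 + η)) := by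
          apply Real.exp_le_exp.2; linarith
      _ = 1 + η := Real.exp_log (by linarith)
  have hlow : 1 - η ≤ (1 - κ) ^ p := by
    have h1 := one_add_mul_self_le_rpow_one_add (s := -κ) (by linarith) hp
    have h2 : Real.log (1 + η) ≤ η := by
      have := Real.log_le_sub_one_of_pos (x := 1 + η) (by linarith)
      linarith
    have h3 : (1 - κ) ^ p = (1 + -κ) ^ p := by ring_nf
    rw [h3]
    linarith
  have hC1 : (1 : ℝ) ≤ (1 + 1 / κ) ^ p := by
    apply Real.one_le_rpow _ hp0.le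
    have : 0 < 1 / κ := by positivity
    linarith
  refine ⟨(1 + 1 / κ) ^ p, hC1, fun a b => ?_⟩
  have ha0 : 0 ≤ |a| ^ p := Real.rpow_nonneg (abs_nonneg _) _
  have hb0 : 0 ≤ |b| ^ p := Real.rpow_nonneg (abs_nonneg _) _
  rcases le_total |b| (κ * |a|) with hb | hb
  · have h1 : |a + b| ≤ (1 + κ) * |a| := by
      have := abs_add_le a b
      linarith
    have h2 : (1 - κ) * |a| ≤ |a + b| := by
      have := abs_sub_abs_le_abs_sub a (-b)
      rw [abs_neg, sub_neg_eq_add] at this
      linarith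
    have h3 : |a + b| ^ p ≤ (1 + κ) ^ p * |a| ^ p := by
      rw [← Real.mul_rpow (by linarith) (abs_nonneg _)]
      exact Real.rpow_le_rpow (abs_nonneg _) h1 hp0.le
    have h4 : (1 - κ) ^ p * |a| ^ p ≤ |a + b| ^ p := by
      rw [← Real.mul_rpow (by linarith) (abs_nonneg _)]
      exact Real.rpow_le_rpow (mul_nonneg (by linarith) (abs_nonneg _)) h2 hp0.le
    have h5 : |a + b| ^ p ≤ (1 + η) * |a| ^ p := h3.trans (by gcongr)
    have h6 : (1 - η) * |a| ^ p ≤ |a + b| ^ p := le_trans (by gcongr) h4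
    have h7 : 0 ≤ (1 + 1 / κ) ^ p * |b| ^ p := by positivity
    rw [abs_le]
    constructor <;> nlinarith
  · have hab : |a| ≤ 1 / κ * |b| := by
      rw [one_div, inv_mul_eq_div, le_div_iff₀ hκ0]
      linarith
    have h1 : |a| ^ p ≤ ((1 + 1 / κ) * |b|) ^ p := by
      apply Real.rpow_le_rpow (abs_nonneg _) _ hp0.le
      have := abs_nonneg b
      linarith
    have h2 : |a + b| ^ p ≤ ((1 + 1 / κ) * |b|) ^ p := by
      apply Real.rpow_le_rpow (abs_nonneg _) _ hp0.le
      have := abs_add_le a b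
      linarith
    have hk : 0 ≤ 1 / κ := by positivity
    rw [Real.mul_rpow (by linarith) (abs_nonneg _)] at h1 h2
    have h3 : 0 ≤ |a + b| ^ p := Real.rpow_nonneg (abs_nonneg _) _
    have h4 : 0 ≤ η * |a| ^ p := by positivity
    rw [abs_le]
    constructor <;> linarith

/-- `∑ x^p ≤ (∑ x)^p`. -/
theorem near_add_sum_rpow (p : ℝ) (hp : 1 ≤ p) {ι : Type*} (S : Finset ι) (x : ι → ℝ)
    (hx : ∀ i ∈ S, 0 ≤ x i) : ∑ i ∈ S, x i ^ p ≤ (∑ i ∈ S, x i) ^ p := by
  classical
  induction S using Finset.induction_on with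
  | empty =>
    simp [Real.zero_rpow (by linarith : p ≠ 0)]
  | insert a S ha ih =>
    rw [sum_insert ha, sum_insert ha]
    have h1 : 0 ≤ x a := hx a (mem_insert_self _ _)
    have h2 : ∀ i ∈ S, 0 ≤ x i := fun i hi => hx i (mem_insert_of_mem hi)
    have h3 : 0 ≤ ∑ i ∈ S, x i := sum_nonneg h2
    calc x a ^ p + ∑ i ∈ S, x i ^ p ≤ x a ^ p + (∑ i ∈ S, x i) ^ p := by
          linarith [ih h2]
      _ ≤ _ := Real.add_rpow_le_rpow_add h1 h3 hp

/-- the profile `w`: `vb` up to `Lv`, and `0` after. -/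
noncomputable def wq (M J Lv : ℕ) (δ : ℕ → ℝ) (s l : ℕ) : ℝ :=
  if l ≤ Lv then vb M J δ s l else 0

theorem parts_eq (p : ℝ) (M J Lv : ℕ) (δ : ℕ → ℝ) (s : ℕ) :
    parts p M J Lv δ s =
      ∑ l ∈ range (Lv + 1), |wq M J Lv δ s l - wq M J Lv δ s (l + 1)| ^ p := by
  rw [sum_range_succ, parts]
  congr 1
  · apply sum_congr rfl
    intro l hl
    rw [mem_range] at hl
    unfold wq
    rw [if_pos (by omega), if_pos (by omega)]
  · unfold wq
    rw [if_pos le_rfl, if_neg (by omega), sub_zero]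

theorem vb_lin (M J : ℕ) (D : ℝ) (f g : ℕ → ℝ) (s l : ℕ) :
    vb M J (fun j => D * f j + g j) s l = D * vb M J f s l + vb M J g s l := by
  unfold vb
  split_ifs with h
  · rfl
  · rw [sum_add_distrib, ← mul_sum, add_div, mul_div_assoc]

theorem wq_lin (M J Lv : ℕ) (D : ℝ) (f g : ℕ → ℝ) (s l : ℕ) :
    wq M J Lv (fun j => D * f j + g j) s l = D * wq M J Lv f s l + wq M J Lv g s l := by
  unfold wq
  split_ifs with h
  · exact vb_lin ..
  · simp

/-- blocks: a double sum over a block decomposition -/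
theorem near_add_blocks (F : ℕ → ℝ) (K L : ℕ) :
    ∑ l ∈ range L, ∑ i ∈ range K, F (l * K + i) = ∑ j ∈ range (L * K), F j := by
  induction L with
  | zero => simp
  | succ L ih =>
    rw [sum_range_succ, ih, Nat.succ_mul, Finset.sum_range_add]

theorem near_add_geom (α : ℝ) (j0 : ℕ) (N : ℕ) :
    ∑ j ∈ range N, (if j < j0 then (0 : ℝ) else α * (1 / 2) ^ (j - j0)) =
      2 * α * (1 - (1 / 2) ^ (N - j0)) := by
  induction N with
  | zero => simp
  | succ N ih =>
    rw [sum_range_succ, ih]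
    split_ifs with h
    · have h1 : N - j0 = 0 := by omega
      have h2 : N + 1 - j0 = 0 := by omega
      rw [h1, h2]; simp
    · have h2 : N + 1 - j0 = (N - j0) + 1 := by omega
      rw [h2, pow_succ]; ring

/-- total mass of the error profile -/
theorem near_add_mass (M J Lv : ℕ) (hJ : 1 ≤ J) (α : ℝ) (hα : 0 ≤ α) (j0 : ℕ) (hj0 : 1 ≤ j0)
    (g : ℕ → ℝ) (hg0 : ∀ j, j < j0 → g j = 0)
    (hg : ∀ j, j0 ≤ j → |g j| ≤ α * (1 / 2) ^ (j - j0)) (s : ℕ) (hs : s < M) :
    ∑ l ∈ range (Lv + 2), |wq M J Lv g s l| ≤ 2 * α / J := by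
  have hJ0 : (0 : ℝ) < J := by exact_mod_cast hJ
  set G : ℕ → ℝ := fun j => if j < j0 then (0 : ℝ) else α * (1 / 2) ^ (j - j0) with hG
  have hgG : ∀ j, |g j| ≤ G j := by
    intro j
    simp only [hG]
    split_ifs with h
    · rw [hg0 j h]; simp
    · exact hg j (not_lt.1 h)
  have hG0 : ∀ j, 0 ≤ G j := fun j => (abs_nonneg _).trans (hgG j)
  rw [sum_range_succ, sum_range_succ']
  have h1 : wq M J Lv g s (Lv + 1) = 0 := by
    unfold wq; rw [if_neg (by omega)]
  have h2 : wq M J Lv g s 0 = 0 := by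
    unfold wq; rw [if_pos (by omega)]; unfold vb; rw [if_pos rfl]; exact hg0 0 (by omega)
  rw [h1, h2, abs_zero, add_zero, add_zero]
  have h3 : ∀ l ∈ range Lv, |wq M J Lv g s (l + 1)| ≤
      (∑ i ∈ range (M * J), G (l * (M * J) + i + 1)) / J := by
    intro l hl
    rw [mem_range] at hl
    unfold wq
    rw [if_pos (by omega)]
    unfold vb
    rw [if_neg (by omega), abs_div, abs_of_pos hJ0]
    gcongr
    rw [Nat.add_sub_cancel]
    calc |∑ i ∈ range J, g (l * (M * J) + s * J + i + 1)|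
        ≤ ∑ i ∈ range J, |g (l * (M * J) + s * J + i + 1)| := abs_sum_le_sum_abs _ _
      _ ≤ ∑ i ∈ range J, G (l * (M * J) + (s * J + i) + 1) := by
          apply sum_le_sum; intro i _
          rw [← add_assoc]
          exact hgG _
      _ = ∑ i ∈ Ico (s * J) (s * J + J), G (l * (M * J) + i + 1) := by
          rw [sum_Ico_eq_sum_range]
          simp
      _ ≤ ∑ i ∈ range (M * J), G (l * (M * J) + i + 1) := by
          apply sum_le_sum_of_subset_of_nonneg
          · intro i hi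
            rw [mem_Ico] at hi
            rw [mem_range]
            have : (s + 1) * J ≤ M * J := Nat.mul_le_mul_right _ (by omega)
            rw [Nat.succ_mul] at this
            omega
          · intro i _ _; exact hG0 _
  calc ∑ l ∈ range Lv, |wq M J Lv g s (l + 1)|
      ≤ ∑ l ∈ range Lv, (∑ i ∈ range (M * J), G (l * (M * J) + i + 1)) / J := sum_le_sum h3
    _ = (∑ j ∈ range (Lv * (M * J)), G (j + 1)) / J := by
        rw [← sum_div, near_add_blocks (fun j => G (j + 1))]
    _ ≤ (∑ j ∈ range (Lv * (M * J) + 1), G j) / J := by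
        gcongr
        rw [sum_range_succ' G]
        linarith [hG0 0]
    _ ≤ 2 * α / J := by
        gcongr
        rw [hG, near_add_geom]
        have : 0 ≤ (1 / 2 : ℝ) ^ (Lv * (M * J) + 1 - j0) := by positivity
        nlinarith

/-- the indicator profile -/
noncomputable def ind (j0 j : ℕ) : ℝ := if j < j0 then 1 else 0

theorem ind_nonneg (j0 j : ℕ) : 0 ≤ ind j0 j := by unfold ind; split_ifs <;> norm_num
theorem ind_le_one (j0 j : ℕ) : ind j0 j ≤ 1 := by unfold ind; split_ifs <;> norm_num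
theorem ind_anti (j0 : ℕ) {i j : ℕ} (h : i ≤ j) : ind j0 j ≤ ind j0 i := by
  unfold ind; split_ifs <;> first | omega | norm_num

theorem th_nonneg (M J Lv j0 s l : ℕ) : 0 ≤ wq M J Lv (ind j0) s l := by
  unfold wq vb
  split_ifs
  · exact ind_nonneg _ _
  · exact div_nonneg (sum_nonneg fun i _ => ind_nonneg _ _) (Nat.cast_nonneg _)
  · exact le_rfl

theorem th_zero (M J Lv j0 s : ℕ) (hj0 : 1 ≤ j0) : wq M J Lv (ind j0) s 0 = 1 := by
  unfold wq vb ind
  rw [if_pos (by omega), if_pos rfl, if_pos (by omega)]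

theorem th_last (M J Lv j0 s : ℕ) : wq M J Lv (ind j0) s (Lv + 1) = 0 := by
  unfold wq
  rw [if_neg (by omega)]

theorem th_anti (M J Lv j0 s l : ℕ) (hJ : 1 ≤ J) (hj0 : 1 ≤ j0) :
    wq M J Lv (ind j0) s (l + 1) ≤ wq M J Lv (ind j0) s l := by
  have hJ0 : (0 : ℝ) < J := by exact_mod_cast hJ
  by_cases h : l + 1 ≤ Lv
  · have e1 : wq M J Lv (ind j0) s (l + 1) = vb M J (ind j0) s (l + 1) := by
      unfold wq; rw [if_pos h]
    have e2 : wq M J Lv (ind j0) s l = vb M J (ind j0) s l := by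
      unfold wq; rw [if_pos (by omega)]
    rw [e1, e2]
    rcases Nat.eq_zero_or_pos l with rfl | hl
    · unfold vb
      rw [if_neg (by omega), if_pos rfl]
      have : ind j0 0 = 1 := by unfold ind; rw [if_pos (by omega)]
      rw [this, div_le_one hJ0]
      calc ∑ i ∈ range J, ind j0 ((0 + 1 - 1) * (M * J) + s * J + i + 1)
          ≤ ∑ i ∈ range J, (1 : ℝ) := sum_le_sum fun i _ => ind_le_one _ _
        _ = J := by simp
    · unfold vb
      rw [if_neg (by omega), if_neg (by omega)]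
      gcongr with i hi
      apply ind_anti
      have : (l - 1) * (M * J) ≤ (l + 1 - 1) * (M * J) := Nat.mul_le_mul_right _ (by omega)
      omega
  · have e1 : wq M J Lv (ind j0) s (l + 1) = 0 := by
      unfold wq; rw [if_neg h]
    rw [e1]; exact th_nonneg ..

theorem th_good (M J Lv j0 s l : ℕ) (hJ : 1 ≤ J) (hj0 : 1 ≤ j0) (hs : s < M)
    (hbad : s ≠ (j0 - 1) / J % M) :
    wq M J Lv (ind j0) s l = 0 ∨ wq M J Lv (ind j0) s l = 1 := by
  have hJ0 : (0 : ℝ) < J := by exact_mod_cast hJ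
  unfold wq
  split_ifs with h
  · unfold vb
    split_ifs with h1
    · unfold ind; split_ifs <;> simp
    · by_cases hA : (l - 1) * (M * J) + s * J + J < j0
      · right
        rw [div_eq_one_iff_eq hJ0.ne']
        calc ∑ i ∈ range J, ind j0 ((l - 1) * (M * J) + s * J + i + 1)
            = ∑ i ∈ range J, (1 : ℝ) := by
              apply sum_congr rfl
              intro i hi
              rw [mem_range] at hi
              unfold ind; rw [if_pos (by omega)]
          _ = J := by simp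
      · by_cases hB : j0 ≤ (l - 1) * (M * J) + s * J + 1
        · left
          rw [div_eq_zero_iff]
          left
          apply sum_eq_zero
          intro i hi
          unfold ind; rw [if_neg (by omega)]
        · exfalso
          apply hbad
          have e : (l - 1) * (M * J) + s * J = ((l - 1) * M + s) * J := by ring
          have : (j0 - 1) / J = (l - 1) * M + s := by
            apply Nat.div_eq_of_lt_le
            · rw [e] at hB; omega
            · rw [e] at hA; rw [Nat.succ_mul]; omega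
          rw [this, Nat.add_comm, Nat.add_mul_mod_self_right, Nat.mod_eq_of_lt hs]
  · left; rfl

theorem near_add (p : ℝ) (hp : 1 ≤ p) (ε : ℝ) (hε : 0 < ε) :
    ∃ (M : ℕ) (C : ℝ), 1 ≤ M ∧ 1 ≤ C ∧
      ∀ (J Lv : ℕ) (Δ α : ℝ) (δ : ℕ → ℝ) (j0 : ℕ), 1 ≤ J → 0 ≤ α → 1 ≤ j0 →
        (∀ j, j < j0 → δ j = Δ) → (∀ j, j0 ≤ j → |δ j| ≤ α * (1 / 2) ^ (j - j0)) →
        |(∑ s ∈ range M, parts p M J Lv δ s) / M - |Δ| ^ p| ≤ ε * |Δ| ^ p + C * (α / J) ^ p := by
  have hp0 : 0 < p := by linarith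
  obtain ⟨C0, hC0, hel⟩ := near_add_elem p hp (ε / 2) (by positivity)
  obtain ⟨M, hM⟩ := exists_nat_ge (2 / ε)
  have hM0 : (0 : ℝ) < M := lt_of_lt_of_le (by positivity) hM
  have hM1 : 1 ≤ M := by exact_mod_cast Nat.one_le_iff_ne_zero.2 (by rintro rfl; simp at hM0)
  have hMi : 1 / (M : ℝ) ≤ ε / 2 := by
    rw [div_le_div_iff₀ hM0 (by norm_num)]
    rw [div_le_iff₀ hε] at hM
    linarith
  have h4 : (1 : ℝ) ≤ 4 ^ p := Real.one_le_rpow (by norm_num) hp0.le
  refine ⟨M, C0 * 4 ^ p, hM1, ?_, ?_⟩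
  · nlinarith
  intro J Lv Δ α δ j0 hJ hα hj0 hδ1 hδ2
  have hJ0 : (0 : ℝ) < J := by exact_mod_cast hJ
  set g : ℕ → ℝ := fun j => if j < j0 then 0 else δ j with hg
  have hδ : δ = fun j => Δ * ind j0 j + g j := by
    funext j
    simp only [hg, ind]
    split_ifs with h
    · rw [hδ1 j h]; ring
    · ring
  have hD0 : 0 ≤ |Δ| ^ p := Real.rpow_nonneg (abs_nonneg _) _
  set X : ℝ := (α / J) ^ p with hX
  have hX0 : 0 ≤ X := Real.rpow_nonneg (by positivity) _
  -- bound for each shift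
  have key : ∀ s ∈ range M, |parts p M J Lv δ s - |Δ| ^ p| ≤
      ε / 2 * |Δ| ^ p + C0 * 4 ^ p * X + (if s = (j0 - 1) / J % M then |Δ| ^ p else 0) := by
    intro s hs
    rw [mem_range] at hs
    set th : ℕ → ℝ := fun l => wq M J Lv (ind j0) s l with hth
    set r : ℕ → ℝ := fun l => wq M J Lv g s l with hr
    have hw : ∀ l, wq M J Lv δ s l = Δ * th l + r l := by
      intro l
      rw [hδ]
      exact wq_lin ..
    have hth1 : ∀ l, 0 ≤ th l - th (l + 1) := fun l => by
      have := th_anti M J Lv j0 s l hJ hj0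
      simp only [hth]; linarith
    have hsum1 : ∑ l ∈ range (Lv + 1), (th l - th (l + 1)) = 1 := by
      rw [Finset.sum_range_sub']
      simp only [hth]
      rw [th_zero _ _ _ _ _ hj0, th_last, sub_zero]
    have hth2 : ∀ l ∈ range (Lv + 1), th l - th (l + 1) ≤ 1 := fun l hl => by
      rw [← hsum1]
      exact single_le_sum (f := fun l => th l - th (l + 1)) (fun i _ => hth1 i) hl
    have hpow : ∀ l ∈ range (Lv + 1), (th l - th (l + 1)) ^ p ≤ th l - th (l + 1) := by
      intro l hl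
      calc (th l - th (l + 1)) ^ p ≤ (th l - th (l + 1)) ^ (1 : ℝ) :=
            Real.rpow_le_rpow_of_exponent_ge' (hth1 l) (hth2 l hl) (by norm_num) hp
        _ = _ := Real.rpow_one _
    set P : ℝ := ∑ l ∈ range (Lv + 1), (th l - th (l + 1)) ^ p with hP
    have hP0 : 0 ≤ P := sum_nonneg fun l _ => Real.rpow_nonneg (hth1 l) _
    have hP1 : P ≤ 1 := (sum_le_sum hpow).trans hsum1.le
    have hPg : s ≠ (j0 - 1) / J % M → P = 1 := by
      intro hne
      rw [hP, ← hsum1]
      apply sum_congr rfl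
      intro l _
      have e1 := th_good M J Lv j0 s l hJ hj0 hs hne
      have e2 := th_good M J Lv j0 s (l + 1) hJ hj0 hs hne
      have e3 := hth1 l
      simp only [hth] at e3 ⊢
      rcases e1 with e1 | e1 <;> rcases e2 with e2 | e2
      · rw [e1, e2, sub_zero]; exact Real.zero_rpow hp0.ne'
      · exfalso; rw [e1, e2] at e3; norm_num at e3
      · rw [e1, e2, sub_zero]; exact Real.one_rpow p
      · rw [e1, e2, sub_self]; exact Real.zero_rpow hp0.ne'
    -- the error
    have hR : ∑ l ∈ range (Lv + 1), |r l - r (l + 1)| ^ p ≤ 4 ^ p * X := by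
      have hm := near_add_mass M J Lv hJ α hα j0 hj0 g (fun j hj => by simp only [hg]; rw [if_pos hj])
        (fun j hj => by simp only [hg]; rw [if_neg (by omega)]; exact hδ2 j hj) s hs
      have hm2 : ∑ l ∈ range (Lv + 1), |r l - r (l + 1)| ≤ 4 * (α / J) := by
        have a1 : ∑ l ∈ range (Lv + 1), |r l| ≤ 2 * α / J := by
          refine le_trans ?_ hm
          rw [sum_range_succ _ (Lv + 1)]
          have := abs_nonneg (wq M J Lv g s (Lv + 1))
          simp only [hr]; linarith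
        have a2 : ∑ l ∈ range (Lv + 1), |r (l + 1)| ≤ 2 * α / J := by
          refine le_trans ?_ hm
          rw [sum_range_succ' _ (Lv + 1)]
          have := abs_nonneg (wq M J Lv g s 0)
          simp only [hr]; linarith
        calc ∑ l ∈ range (Lv + 1), |r l - r (l + 1)|
            ≤ ∑ l ∈ range (Lv + 1), (|r l| + |r (l + 1)|) :=
              sum_le_sum fun l _ => abs_sub _ _
          _ ≤ 2 * α / J + 2 * α / J := by rw [sum_add_distrib]; linarith
          _ = 4 * (α / J) := by ring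
      calc ∑ l ∈ range (Lv + 1), |r l - r (l + 1)| ^ p
          ≤ (∑ l ∈ range (Lv + 1), |r l - r (l + 1)|) ^ p :=
            near_add_sum_rpow p hp _ _ fun _ _ => abs_nonneg _
        _ ≤ (4 * (α / J)) ^ p := by
            apply Real.rpow_le_rpow (sum_nonneg fun _ _ => abs_nonneg _) hm2 hp0.le
        _ = 4 ^ p * X := by
            rw [Real.mul_rpow (by norm_num) (by positivity)]
    -- combine
    have hdiff : |parts p M J Lv δ s - P * |Δ| ^ p| ≤ ε / 2 * |Δ| ^ p + C0 * (4 ^ p * X) := by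
      rw [parts_eq, hP, sum_mul, ← sum_sub_distrib]
      calc |∑ l ∈ range (Lv + 1), (|wq M J Lv δ s l - wq M J Lv δ s (l + 1)| ^ p -
              (th l - th (l + 1)) ^ p * |Δ| ^ p)|
          ≤ ∑ l ∈ range (Lv + 1), |(|wq M J Lv δ s l - wq M J Lv δ s (l + 1)| ^ p -
              (th l - th (l + 1)) ^ p * |Δ| ^ p)| := abs_sum_le_sum_abs _ _
        _ ≤ ∑ l ∈ range (Lv + 1), (ε / 2 * ((th l - th (l + 1)) ^ p * |Δ| ^ p) +
              C0 * |r l - r (l + 1)| ^ p) := by
            apply sum_le_sum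
            intro l _
            have e1 : wq M J Lv δ s l - wq M J Lv δ s (l + 1) =
                (th l - th (l + 1)) * Δ + (r l - r (l + 1)) := by
              rw [hw, hw]; ring
            have e2 : (th l - th (l + 1)) ^ p * |Δ| ^ p = |(th l - th (l + 1)) * Δ| ^ p := by
              rw [abs_mul, Real.mul_rpow (abs_nonneg _) (abs_nonneg _), abs_of_nonneg (hth1 l)]
            rw [e1, e2]
            exact hel _ _
        _ = ε / 2 * (P * |Δ| ^ p) + C0 * ∑ l ∈ range (Lv + 1), |r l - r (l + 1)| ^ p := by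
            rw [sum_add_distrib, ← mul_sum, ← mul_sum, hP, sum_mul]
        _ ≤ ε / 2 * (1 * |Δ| ^ p) + C0 * (4 ^ p * X) := by
            have : 0 ≤ ε / 2 := by positivity
            gcongr
        _ = _ := by ring
    split_ifs with hbad
    · have : |P * |Δ| ^ p - |Δ| ^ p| ≤ |Δ| ^ p := by
        rw [abs_le]
        constructor <;> nlinarith
      calc |parts p M J Lv δ s - |Δ| ^ p|
          ≤ |parts p M J Lv δ s - P * |Δ| ^ p| + |P * |Δ| ^ p - |Δ| ^ p| := abs_sub_le _ _ _
        _ ≤ _ := by linarith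
    · rw [hPg hbad, one_mul] at hdiff
      linarith
  have hsum : |(∑ s ∈ range M, parts p M J Lv δ s) / M - |Δ| ^ p| ≤
      (∑ s ∈ range M, |parts p M J Lv δ s - |Δ| ^ p|) / M := by
    have e : (∑ s ∈ range M, parts p M J Lv δ s) / M - |Δ| ^ p =
        (∑ s ∈ range M, (parts p M J Lv δ s - |Δ| ^ p)) / M := by
      rw [sum_sub_distrib, sum_const, card_range, nsmul_eq_mul]
      field_simp
    rw [e, abs_div, abs_of_pos hM0]
    gcongr
    exact abs_sum_le_sum_abs _ _
  refine hsum.trans ?_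
  have hfin : (∑ s ∈ range M, |parts p M J Lv δ s - |Δ| ^ p|) ≤
      M * (ε / 2 * |Δ| ^ p + C0 * 4 ^ p * X) + |Δ| ^ p := by
    refine (sum_le_sum key).trans ?_
    rw [sum_add_distrib, sum_const, card_range, nsmul_eq_mul]
    gcongr
    rw [sum_ite_eq']
    split_ifs
    · exact le_rfl
    · exact hD0
  calc (∑ s ∈ range M, |parts p M J Lv δ s - |Δ| ^ p|) / M
      ≤ (M * (ε / 2 * |Δ| ^ p + C0 * 4 ^ p * X) + |Δ| ^ p) / M := by gcongr
    _ = ε / 2 * |Δ| ^ p + C0 * 4 ^ p * X + 1 / M * |Δ| ^ p := by field_simp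
    _ ≤ ε / 2 * |Δ| ^ p + C0 * 4 ^ p * X + ε / 2 * |Δ| ^ p := by gcongr
    _ = ε * |Δ| ^ p + C0 * 4 ^ p * X := by ring

end Vale.Agent.P249C
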