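import Mathlib
import Vale.Agent.Lib.P249C.NearAdd

/-!
P249C: properties of the window averages.
-/

open Finset

namespace Vale.Agent.P249C

/-- first threshold of the window `l` -/
def jmin (M J s l : ℕ) : ℕ := if l = 0 then 0 else (l - 1) * (M * J) + s * J + 1

/-- last threshold of the window `l` -/
def jmax (M J s l : ℕ) : ℕ := if l = 0 then 0 else (l - 1) * (M * J) + s * J + J

lemma vb_sub (M J : ℕ) (δ δ' : ℕ → ℝ) (s l : ℕ) :
    vb M J (fun j => δ j - δ' j) s l = vb M J δ s l - vb M J δ' s l := by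
  unfold vb
  split_ifs
  · rfl
  · rw [Finset.sum_sub_distrib, sub_div]

lemma vb_abs_le {M J : ℕ} (hJ : 1 ≤ J) {δ : ℕ → ℝ} {s l : ℕ} {B : ℝ}
    (h : ∀ j, jmin M J s l ≤ j → |δ j| ≤ B) : |vb M J δ s l| ≤ B := by
  have hJ0 : (0:ℝ) < J := by exact_mod_cast hJ
  unfold vb
  unfold jmin at h
  split_ifs with h0
  · rw [if_pos h0] at h
    exact h 0 le_rfl
  · rw [if_neg h0] at h
    rw [abs_div, abs_of_pos hJ0, div_le_iff₀ hJ0]
    calc |∑ i ∈ range J, δ ((l - 1) * (M * J) + s * J + i + 1)| ≤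
        ∑ i ∈ range J, |δ ((l - 1) * (M * J) + s * J + i + 1)| := Finset.abs_sum_le_sum_abs _ _
      _ ≤ ∑ i ∈ range J, B := Finset.sum_le_sum fun i _ => h _ (by omega)
      _ = B * J := by rw [Finset.sum_const, card_range, nsmul_eq_mul, mul_comm]

lemma vb_const {M J : ℕ} (hJ : 1 ≤ J) {δ : ℕ → ℝ} {s l : ℕ} {D : ℝ}
    (h : ∀ j, j ≤ jmax M J s l → δ j = D) : vb M J δ s l = D := by
  have hJ0 : (0:ℝ) < J := by exact_mod_cast hJ
  unfold vb
  unfold jmax at h
  split_ifs with h0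
  · rw [if_pos h0] at h
    exact h 0 le_rfl
  · rw [if_neg h0] at h
    have h1 : ∑ i ∈ range J, δ ((l - 1) * (M * J) + s * J + i + 1) = ∑ i ∈ range J, D :=
      Finset.sum_congr rfl fun i hi => h _ (by have := mem_range.1 hi; omega)
    rw [h1, Finset.sum_const, card_range, nsmul_eq_mul, mul_div_cancel_left₀ _ hJ0.ne']

lemma jmin_mono {M J s l : ℕ} : jmin M J s l ≤ jmin M J s (l + 1) := by
  unfold jmin
  rw [if_neg (Nat.succ_ne_zero l)]
  split_ifs with h
  · omega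
  · simp only [Nat.add_sub_cancel]
    have : (l - 1) * (M * J) ≤ l * (M * J) := Nat.mul_le_mul_right _ (by omega)
    omega

lemma jmax_mono {M J s l : ℕ} : jmax M J s l ≤ jmax M J s (l + 1) := by
  unfold jmax
  rw [if_neg (Nat.succ_ne_zero l)]
  split_ifs with h
  · omega
  · simp only [Nat.add_sub_cancel]
    have : (l - 1) * (M * J) ≤ l * (M * J) := Nat.mul_le_mul_right _ (by omega)
    omega

lemma jmax_le {M J s l : ℕ} (hs : s < M) :
    jmax M J s (l + 1) ≤ 2 * M * J + jmin M J s l := by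
  unfold jmax jmin
  rw [if_neg (Nat.succ_ne_zero l)]
  have h2 : s * J + J ≤ M * J := by
    calc s * J + J = (s + 1) * J := by ring
      _ ≤ M * J := Nat.mul_le_mul_right _ hs
  have h3 : 2 * M * J = M * J + M * J := by ring
  split_ifs with h
  · rw [h]
    simp only [Nat.add_sub_cancel, zero_mul]
    omega
  · simp only [Nat.add_sub_cancel]
    have h1 : l * (M * J) = (l - 1) * (M * J) + M * J := by
      obtain ⟨k, rfl⟩ : ∃ k, l = k + 1 := ⟨l - 1, by omega⟩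
      simp only [Nat.add_sub_cancel]; ring
    rw [h1]
    omega

lemma le_jmin {M J s l : ℕ} (hM : 1 ≤ M) (hJ : 1 ≤ J) : l ≤ jmin M J s l := by
  unfold jmin
  split_ifs with h
  · omega
  · have : l - 1 ≤ (l - 1) * (M * J) := Nat.le_mul_of_pos_right _ (Nat.mul_pos hM hJ)
    omega

/-- the coordinate `l` of the parts -/
noncomputable def prt (M J Lv : ℕ) (δ : ℕ → ℝ) (s l : ℕ) : ℝ :=
  if l < Lv then vb M J δ s l - vb M J δ s (l + 1) else vb M J δ s l

lemma prt_sub (M J Lv : ℕ) (δ δ' : ℕ → ℝ) (s l : ℕ) :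
    prt M J Lv (fun j => δ j - δ' j) s l = prt M J Lv δ s l - prt M J Lv δ' s l := by
  unfold prt
  split_ifs
  · rw [vb_sub, vb_sub]; ring
  · rw [vb_sub]

lemma parts_eq_prt (p : ℝ) (M J Lv : ℕ) (δ : ℕ → ℝ) (s : ℕ) :
    parts p M J Lv δ s = ∑ l ∈ range (Lv + 1), |prt M J Lv δ s l| ^ p := by
  unfold parts prt
  rw [Finset.sum_range_succ, if_neg (lt_irrefl _)]
  congr 1
  refine Finset.sum_congr rfl fun l hl => ?_
  rw [if_pos (mem_range.1 hl)]

lemma prt_abs_le {M J Lv : ℕ} (hJ : 1 ≤ J) {δ : ℕ → ℝ} {s l : ℕ} {B : ℝ}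
    (h : ∀ j, jmin M J s l ≤ j → |δ j| ≤ B) : |prt M J Lv δ s l| ≤ 2 * B := by
  have h1 : |vb M J δ s l| ≤ B := vb_abs_le hJ h
  have h2 : |vb M J δ s (l + 1)| ≤ B := vb_abs_le hJ fun j hj => h j (jmin_mono.trans hj)
  have hB : 0 ≤ B := (abs_nonneg _).trans h1
  unfold prt
  split_ifs
  · calc |vb M J δ s l - vb M J δ s (l + 1)| ≤ |vb M J δ s l| + |vb M J δ s (l + 1)| :=
        abs_sub _ _
      _ ≤ 2 * B := by linarith
  · linarith

lemma prt_eq_zero {M J Lv : ℕ} (hJ : 1 ≤ J) {δ : ℕ → ℝ} {s l : ℕ} (hl : l < Lv) {D : ℝ}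
    (h : ∀ j, j ≤ jmax M J s (l + 1) → δ j = D) : prt M J Lv δ s l = 0 := by
  unfold prt
  rw [if_pos hl, vb_const hJ h, vb_const hJ fun j hj => h j (hj.trans jmax_mono), sub_self]

end Vale.Agent.P249C
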