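import Mathlib
import Vale.Agent.Lib.P249C.Vb
import Vale.Agent.Lib.P249C.Mcshane
import Vale.Agent.Lib.P249C.Part

/-!
P249C: assembling the parts.
-/

open Finset

namespace Vale.Agent.P249C

section dist

variable {X Ω : Type} [Fintype Ω] {p : ℝ}

/-- the distance -/
noncomputable def dd (p : ℝ) (u : Ω → X → ℝ) (x y : X) : ℝ :=
  (∑ ω, |u ω x - u ω y| ^ p) ^ (1 / p)

lemma dd_nonneg (u : Ω → X → ℝ) (x y : X) : 0 ≤ dd p u x y := by
  unfold dd; positivity

lemma dd_pow (hp : 1 ≤ p) (u : Ω → X → ℝ) (x y : X) :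
    dd p u x y ^ p = ∑ ω, |u ω x - u ω y| ^ p := by
  have hp0 : 0 < p := by linarith
  unfold dd
  rw [← Real.rpow_mul (by positivity), one_div_mul_cancel hp0.ne', Real.rpow_one]

lemma dd_self (hp : 1 ≤ p) (u : Ω → X → ℝ) (x : X) : dd p u x x = 0 := by
  have hp0 : 0 < p := by linarith
  unfold dd
  simp [Real.zero_rpow hp0.ne', Real.zero_rpow (inv_ne_zero hp0.ne')]

lemma dd_comm (u : Ω → X → ℝ) (x y : X) : dd p u x y = dd p u y x := by
  unfold dd
  congr 1
  exact Finset.sum_congr rfl fun ω _ => by rw [abs_sub_comm]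

lemma dd_tri (hp : 1 ≤ p) (u : Ω → X → ℝ) (x y z : X) :
    dd p u x z ≤ dd p u x y + dd p u y z := by
  unfold dd
  have h := Real.Lp_add_le univ (fun ω => u ω x - u ω y) (fun ω => u ω y - u ω z) hp
  have e : ∀ ω, (fun ω => u ω x - u ω y) ω + (fun ω => u ω y - u ω z) ω = u ω x - u ω z :=
    fun ω => by ring
  simp only [e] at h
  exact h

end dist

lemma max_rpow_le {p a b : ℝ} (ha : 0 ≤ a) (hb : 0 ≤ b) :
    max a b ^ p ≤ a ^ p + b ^ p := by
  have h1 : 0 ≤ a ^ p := Real.rpow_nonneg ha p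
  have h2 : 0 ≤ b ^ p := Real.rpow_nonneg hb p
  rcases max_choice a b with h | h
  · rw [h]; linarith
  · rw [h]; linarith

lemma half_pow_rpow (p : ℝ) (j : ℕ) : 0 < ((1 / 2 : ℝ) ^ j) ^ p := by positivity

/-- near additivity for one coordinate -/
theorem coord_near {X : Type} [Fintype X] {p : ℝ} {ε C : ℝ} {M : ℕ}
    (hna : ∀ (J Lv : ℕ) (Δ α : ℝ) (δ : ℕ → ℝ) (j0 : ℕ), 1 ≤ J → 0 ≤ α → 1 ≤ j0 →
        (∀ j, j < j0 → δ j = Δ) → (∀ j, j0 ≤ j → |δ j| ≤ α * (1 / 2) ^ (j - j0)) →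
        |(∑ s ∈ range M, parts p M J Lv δ s) / M - |Δ| ^ p| ≤ ε * |Δ| ^ p + C * (α / J) ^ p)
    {J : ℕ} (Lv : ℕ) (hJ : 1 ≤ J) {d : X → X → ℝ} (hd : ∀ x y, 0 ≤ d x y) {u a : X → ℝ}
    (ha : ∀ x, 0 ≤ a x) {B : ℝ} (hB : ∀ x, a x ≤ B)
    {v : ℕ → X → ℝ} (hv1 : ∀ j x y, |v j x - v j y| ≤ B * (1 / 2) ^ j * d x y)
    (hv2 : ∀ j x, a x ≤ B * (1 / 2) ^ j → v j x = u x) (x y : X) :
    |(∑ s ∈ range M, parts p M J Lv (fun j => v j x - v j y) s) / M - |u x - u y| ^ p| ≤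
      ε * |u x - u y| ^ p + C * (max (a x) (a y) * d x y / J) ^ p := by
  have hmax0 : 0 ≤ max (a x) (a y) := (ha x).trans (le_max_left _ _)
  by_cases hex : ∃ j, B * (1 / 2) ^ j < max (a x) (a y)
  · classical
    obtain ⟨j0, hj0, hmin⟩ : ∃ j, B * (1 / 2) ^ j < max (a x) (a y) ∧
        ∀ i < j, ¬ (B * (1 / 2) ^ i < max (a x) (a y)) :=
      ⟨Nat.find hex, Nat.find_spec hex, fun i hi => Nat.find_min hex hi⟩
    have h1 : 1 ≤ j0 := by
      rcases Nat.eq_zero_or_pos j0 with h | h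
      · rw [h, pow_zero, mul_one] at hj0
        exact absurd hj0 (not_lt.2 (max_le (hB x) (hB y)))
      · exact h
    apply hna J Lv (u x - u y) (max (a x) (a y) * d x y) _ j0 hJ
      (mul_nonneg hmax0 (hd x y)) h1
    · intro j hj
      have h2 := not_lt.1 (hmin j hj)
      rw [hv2 j x ((le_max_left _ _).trans h2), hv2 j y ((le_max_right _ _).trans h2)]
    · intro j hj
      refine (hv1 j x y).trans ?_
      have h3 : B * (1 / 2) ^ j = (B * (1 / 2) ^ j0) * (1 / 2) ^ (j - j0) := by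
        rw [mul_assoc, ← pow_add, Nat.add_sub_cancel' hj]
      rw [h3]
      calc B * (1 / 2) ^ j0 * (1 / 2) ^ (j - j0) * d x y ≤
          max (a x) (a y) * (1 / 2) ^ (j - j0) * d x y := by
            apply mul_le_mul_of_nonneg_right _ (hd x y)
            exact mul_le_mul_of_nonneg_right hj0.le (by positivity)
        _ = _ := by ring
  · push Not at hex
    have hB0 : 0 ≤ B := (ha x).trans (hB x)
    have h0 : max (a x) (a y) = 0 := by
      apply le_antisymm _ hmax0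
      have h1 : Filter.Tendsto (fun j : ℕ => B * (1 / 2 : ℝ) ^ j) Filter.atTop (nhds (B * 0)) :=
        (tendsto_pow_atTop_nhds_zero_of_lt_one (by norm_num) (by norm_num)).const_mul B
      rw [mul_zero] at h1
      exact ge_of_tendsto' h1 hex
    have hvu : ∀ j, v j x - v j y = u x - u y := fun j => by
      have h2 := hex j
      rw [hv2 j x ((le_max_left _ _).trans h2), hv2 j y ((le_max_right _ _).trans h2)]
    have hu0 : u x - u y = 0 := by
      have h1 : Filter.Tendsto (fun j : ℕ => B * (1 / 2 : ℝ) ^ j * d x y) Filter.atTop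
          (nhds (B * 0 * d x y)) :=
        ((tendsto_pow_atTop_nhds_zero_of_lt_one (by norm_num) (by norm_num)).const_mul
          B).mul_const _
      rw [mul_zero, zero_mul] at h1
      have h3 : |u x - u y| ≤ 0 := ge_of_tendsto' h1 fun j => by
        rw [← hvu j]; exact hv1 j x y
      exact abs_nonpos_iff.1 h3
    have h4 := hna J Lv 0 0 (fun j => v j x - v j y) 1 hJ le_rfl le_rfl
      (fun j _ => by rw [hvu, hu0]) (fun j _ => by rw [hvu, hu0]; simp)
    rw [hu0, h0, zero_mul]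
    exact h4

/-- concatenating maps -/
theorem concat {X ι : Type} [Fintype ι] (p : ℝ) (N : ι → ℕ) (G : ∀ i, X → Fin (N i) → ℝ) :
    ∃ F : X → Fin (∑ i, N i) → ℝ, ∀ x y,
      ∑ k, |F x k - F y k| ^ p = ∑ i, ∑ k, |G i x k - G i y k| ^ p := by
  classical
  have hcard : Fintype.card (Σ i, Fin (N i)) = ∑ i, N i := by simp
  set e : (Σ i, Fin (N i)) ≃ Fin (∑ i, N i) := Fintype.equivFinOfCardEq hcard
  refine ⟨fun x k => G (e.symm k).1 x (e.symm k).2, fun x y => ?_⟩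
  rw [← Fintype.sum_sigma (fun i : Σ i, Fin (N i) => |G i.1 x i.2 - G i.1 y i.2| ^ p)]
  exact Equiv.sum_comp e.symm (fun i : Σ i, Fin (N i) => |G i.1 x i.2 - G i.1 y i.2| ^ p)

/-- the load of a part -/
theorem load_le {X Ω : Type} [Fintype X] [Fintype Ω] {p : ℝ} (hp : 1 ≤ p) {M J Lv : ℕ}
    (hM : 1 ≤ M) (hJ : 1 ≤ J) (u a : Ω → X → ℝ) {Λ : ℝ} (hΛ : 1 ≤ Λ)
    (ha0 : ∀ ω x, 0 ≤ a ω x) (haΛ : ∀ x, ∑ ω, a ω x ^ p ≤ Λ)
    (hLv : (Fintype.card X : ℝ) ≤ 2 ^ Lv) {T B : Ω → ℝ} (hT : ∀ ω, T ω = ∑ x, a ω x ^ p)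
    (hB0 : ∀ ω, 0 ≤ B ω) (hBp : ∀ ω, B ω ^ p = T ω) {v : Ω → ℕ → X → ℝ}
    (hv2 : ∀ ω j x, a ω x ≤ B ω * (1 / 2) ^ j → v ω j x = u ω x) {s : ℕ} (hs : s < M)
    {l : ℕ} (hl : l ≤ Lv) (x : X) :
    ∑ ω, (if prt M J Lv (fun j => v ω j x) s l = 0 then 0 else
      2 ^ p * T ω * ((1 / 2 : ℝ) ^ (jmin M J s l)) ^ p) ≤
      2 ^ (p * (2 * M * J + 1)) * Λ := by
  have hp0 : 0 < p := by linarith
  have hT0 : ∀ ω, 0 ≤ T ω := fun ω => by
    rw [hT]; exact Finset.sum_nonneg fun x _ => Real.rpow_nonneg (ha0 ω x) p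
  rcases hl.lt_or_eq with hl | hl
  · have h1 : ∀ ω, (if prt M J Lv (fun j => v ω j x) s l = 0 then 0 else
        2 ^ p * T ω * ((1 / 2 : ℝ) ^ (jmin M J s l)) ^ p) ≤
        2 ^ (p * (2 * M * J + 1)) * a ω x ^ p := by
      intro ω
      have ha : 0 ≤ a ω x ^ p := Real.rpow_nonneg (ha0 ω x) p
      split_ifs with h
      · positivity
      have h2 : B ω * (1 / 2) ^ (jmax M J s (l + 1)) < a ω x := by
        by_contra hcon
        apply h
        apply prt_eq_zero hJ hl (D := u ω x)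
        intro j hj
        apply hv2
        refine (not_lt.1 hcon).trans ?_
        apply mul_le_mul_of_nonneg_left _ (hB0 ω)
        exact pow_le_pow_of_le_one (by norm_num) (by norm_num) hj
      have h3 : ((1 / 2 : ℝ) ^ (jmin M J s l)) ≤
          2 ^ (2 * M * J) * (1 / 2) ^ (jmax M J s (l + 1)) := by
        have h4 : (1 / 2 : ℝ) ^ (2 * M * J + jmin M J s l) ≤ (1 / 2) ^ (jmax M J s (l + 1)) :=
          pow_le_pow_of_le_one (by norm_num) (by norm_num) (jmax_le hs)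
        have h5 : (1 / 2 : ℝ) ^ (jmin M J s l) =
            2 ^ (2 * M * J) * (1 / 2) ^ (2 * M * J + jmin M J s l) := by
          rw [pow_add, ← mul_assoc, ← mul_pow]
          norm_num
        rw [h5]
        exact mul_le_mul_of_nonneg_left h4 (by positivity)
      have h6 : 2 ^ p * T ω * ((1 / 2 : ℝ) ^ (jmin M J s l)) ^ p =
          (2 * B ω * (1 / 2 : ℝ) ^ (jmin M J s l)) ^ p := by
        rw [Real.mul_rpow (mul_nonneg (by norm_num) (hB0 ω)) (by positivity),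
          Real.mul_rpow (by norm_num) (hB0 ω), hBp]
      have h7 : (2:ℝ) ^ (p * (2 * M * J + 1)) * a ω x ^ p =
          (2 ^ (2 * M * J + 1) * a ω x) ^ p := by
        rw [Real.mul_rpow (by positivity) (ha0 ω x), ← Real.rpow_natCast,
          ← Real.rpow_mul (by norm_num)]
        congr 2
        push_cast
        ring
      rw [h6, h7]
      apply Real.rpow_le_rpow (mul_nonneg (mul_nonneg (by norm_num) (hB0 ω)) (by positivity)) _
        hp0.le
      calc 2 * B ω * (1 / 2 : ℝ) ^ (jmin M J s l) ≤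
          2 * B ω * (2 ^ (2 * M * J) * (1 / 2) ^ (jmax M J s (l + 1))) :=
            mul_le_mul_of_nonneg_left h3 (mul_nonneg (by norm_num) (hB0 ω))
        _ = 2 ^ (2 * M * J + 1) * (B ω * (1 / 2) ^ (jmax M J s (l + 1))) := by
            rw [pow_succ]; ring
        _ ≤ _ := mul_le_mul_of_nonneg_left h2.le (by positivity)
    refine (Finset.sum_le_sum fun ω _ => h1 ω).trans ?_
    rw [← Finset.mul_sum]
    exact mul_le_mul_of_nonneg_left (haΛ x) (by positivity)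
  · subst hl
    have h1 : ∀ ω, (if prt M J l (fun j => v ω j x) s l = 0 then 0 else
        2 ^ p * T ω * ((1 / 2 : ℝ) ^ (jmin M J s l)) ^ p) ≤
        2 ^ p * (1 / 2) ^ l * T ω := by
      intro ω
      have hTω := hT0 ω
      split_ifs with h
      · positivity
      have h2 : ((1 / 2 : ℝ) ^ (jmin M J s l)) ≤ (1 / 2) ^ l :=
        pow_le_pow_of_le_one (by norm_num) (by norm_num) (le_jmin hM hJ)
      have h3 : ((1 / 2 : ℝ) ^ (jmin M J s l)) ^ p ≤ ((1 / 2 : ℝ) ^ (jmin M J s l)) := by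
        have h4 := Real.rpow_le_rpow_of_exponent_ge
          (by positivity : (0:ℝ) < (1 / 2 : ℝ) ^ (jmin M J s l))
          (pow_le_one₀ (by norm_num) (by norm_num)) hp
        rwa [Real.rpow_one] at h4
      calc 2 ^ p * T ω * ((1 / 2 : ℝ) ^ (jmin M J s l)) ^ p ≤ 2 ^ p * T ω * (1 / 2) ^ l :=
            mul_le_mul_of_nonneg_left (h3.trans h2) (by positivity)
        _ = _ := by ring
    refine (Finset.sum_le_sum fun ω _ => h1 ω).trans ?_
    rw [← Finset.mul_sum]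
    have h2 : ∑ ω, T ω ≤ 2 ^ l * Λ := by
      rw [Finset.sum_congr rfl fun ω _ => hT ω, Finset.sum_comm]
      calc ∑ x, ∑ ω, a ω x ^ p ≤ ∑ x : X, Λ := Finset.sum_le_sum fun x _ => haΛ x
        _ = Fintype.card X * Λ := by rw [Finset.sum_const, card_univ, nsmul_eq_mul]
        _ ≤ _ := mul_le_mul_of_nonneg_right hLv (by linarith)
    calc 2 ^ p * (1 / 2) ^ l * ∑ ω, T ω ≤ 2 ^ p * (1 / 2) ^ l * (2 ^ l * Λ) :=
          mul_le_mul_of_nonneg_left h2 (by positivity)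
      _ = 2 ^ p * ((1 / 2) ^ l * 2 ^ l) * Λ := by ring
      _ = 2 ^ p * Λ := by rw [← mul_pow]; norm_num
      _ ≤ _ := by
          apply mul_le_mul_of_nonneg_right _ (by linarith)
          apply Real.rpow_le_rpow_of_exponent_le (by norm_num)
          have : (0:ℝ) ≤ 2 * M * J := by positivity
          nlinarith

/-- assembling the parts -/
theorem assemble {p : ℝ} (hp : 1 ≤ p) {ε C : ℝ} {M : ℕ} (hε0 : 0 < ε) (hε1 : ε ≤ 1)
    (hM : 1 ≤ M)
    (hna : ∀ (J Lv : ℕ) (Δ α : ℝ) (δ : ℕ → ℝ) (j0 : ℕ), 1 ≤ J → 0 ≤ α → 1 ≤ j0 →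
        (∀ j, j < j0 → δ j = Δ) → (∀ j, j0 ≤ j → |δ j| ≤ α * (1 / 2) ^ (j - j0)) →
        |(∑ s ∈ range M, parts p M J Lv δ s) / M - |Δ| ^ p| ≤ ε * |Δ| ^ p + C * (α / J) ^ p)
    (hC : 0 ≤ C) {c : ℝ}
    (hpart : ∀ (X Ω : Type) [Fintype X] [DecidableEq X] [Fintype Ω]
      (d : X → X → ℝ) (_ : ∀ x y, 0 ≤ d x y) (f : Ω → X → ℝ) (S : Ω → ℝ) (_ : ∀ ω, 0 ≤ S ω)
      (_ : ∀ ω x y, |f ω x - f ω y| ^ p ≤ S ω * d x y ^ p) (K C1 ε : ℝ) (_ : 1 ≤ K)
      (_ : 1 ≤ C1) (_ : 0 < ε) (_ : ε ≤ 1)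
      (_ : ∀ x, ∑ ω, (if f ω x = 0 then 0 else S ω) ≤ K)
      (_ : ∀ x y, ∑ ω, |f ω x - f ω y| ^ p ≤ C1 * d x y ^ p),
      ∃ (N : ℕ) (G : X → Fin N → ℝ),
        (N : ℝ) ≤ (c * K * C1 * Real.log (Fintype.card X + 2) / ε) ^ c ∧
        ∀ x y, |∑ k, |G x k - G y k| ^ p - ∑ ω, |f ω x - f ω y| ^ p| ≤ ε * d x y ^ p)
    (X Ω : Type) [Fintype X] [DecidableEq X] [Fintype Ω] (u a : Ω → X → ℝ) {Λ : ℝ} (hΛ : 1 ≤ Λ)
    (ha0 : ∀ ω x, 0 ≤ a ω x) (hua : ∀ ω x y, |u ω x - u ω y| ≤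
      max (a ω x) (a ω y) * (∑ ω', |u ω' x - u ω' y| ^ p) ^ (1 / p))
    (haΛ : ∀ x, ∑ ω, a ω x ^ p ≤ Λ) {J Lv : ℕ} (hJ : 1 ≤ J) (hJΛ : 2 * C * Λ ≤ ε * (J:ℝ) ^ p)
    (hLv : (Fintype.card X : ℝ) ≤ 2 ^ Lv) :
    ∃ (N : ℕ) (G : X → Fin N → ℝ),
      (N : ℝ) ≤ M * (Lv + 1) * (c * (2 ^ (p * (2 * M * J + 1)) * Λ) * (3 * M) *
        Real.log (Fintype.card X + 2) / (ε / (Lv + 1))) ^ c ∧
      ∀ x y, |∑ k, |G x k - G y k| ^ p - ∑ ω, |u ω x - u ω y| ^ p| ≤
        3 * ε * ∑ ω, |u ω x - u ω y| ^ p := by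
  have hp0 : 0 < p := by linarith
  have hM0 : (0:ℝ) < M := by exact_mod_cast hM
  have hM1 : (1:ℝ) ≤ M := by exact_mod_cast hM
  have hJ0 : (0:ℝ) < J := by exact_mod_cast hJ
  have hL0 : (0:ℝ) < (Lv:ℝ) + 1 := by positivity
  -- the thresholds
  set T : Ω → ℝ := fun ω => ∑ x, a ω x ^ p with hT
  have hT0 : ∀ ω, 0 ≤ T ω := fun ω => Finset.sum_nonneg fun x _ => Real.rpow_nonneg (ha0 ω x) p
  set B : Ω → ℝ := fun ω => T ω ^ (1 / p) with hB
  have hB0 : ∀ ω, 0 ≤ B ω := fun ω => Real.rpow_nonneg (hT0 ω) _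
  have hBp : ∀ ω, B ω ^ p = T ω := fun ω => by
    simp only [hB]
    rw [← Real.rpow_mul (hT0 ω), one_div_mul_cancel hp0.ne', Real.rpow_one]
  have haB : ∀ ω x, a ω x ≤ B ω := by
    intro ω x
    have h1 : a ω x ^ p ≤ B ω ^ p := by
      rw [hBp]
      exact Finset.single_le_sum (f := fun x => a ω x ^ p)
        (fun x _ => Real.rpow_nonneg (ha0 ω x) p) (mem_univ x)
    exact (Real.rpow_le_rpow_iff (ha0 ω x) (hB0 ω) hp0).1 h1
  have hreg : ∀ ω (j : ℕ), ∃ v : X → ℝ,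
      (∀ x y, |v x - v y| ≤ (B ω * (1 / 2) ^ j) * dd p u x y) ∧
      ∀ x, a ω x ≤ B ω * (1 / 2) ^ j → v x = u ω x := fun ω j =>
    exists_reg (dd p u) (dd_nonneg u) (dd_self hp u) (dd_comm u) (dd_tri hp u) (u ω) (a ω)
      (hua ω) _ (mul_nonneg (hB0 ω) (by positivity))
  choose v hv1 hv2 using hreg
  set D : X → X → ℝ := fun x y => ∑ ω, |u ω x - u ω y| ^ p with hD
  have hD0 : ∀ x y, 0 ≤ D x y := fun x y => Finset.sum_nonneg fun ω _ => by positivity
  have hdD : ∀ x y, dd p u x y ^ p = D x y := fun x y => dd_pow hp u x y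
  -- near additivity
  have hnear : ∀ x y, |(∑ s ∈ range M, ∑ ω, parts p M J Lv (fun j => v ω j x - v ω j y) s) / M -
      D x y| ≤ 2 * ε * D x y := by
    intro x y
    have h1 : ∀ ω, |(∑ s ∈ range M, parts p M J Lv (fun j => v ω j x - v ω j y) s) / M -
        |u ω x - u ω y| ^ p| ≤ ε * |u ω x - u ω y| ^ p +
          C * (max (a ω x) (a ω y) * dd p u x y / J) ^ p := fun ω =>
      coord_near hna Lv hJ (dd_nonneg u) (ha0 ω) (haB ω) (hv1 ω) (hv2 ω) x y
    have h2 : (∑ s ∈ range M, ∑ ω, parts p M J Lv (fun j => v ω j x - v ω j y) s) / M - D x y =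
        ∑ ω, ((∑ s ∈ range M, parts p M J Lv (fun j => v ω j x - v ω j y) s) / M -
          |u ω x - u ω y| ^ p) := by
      rw [Finset.sum_sub_distrib, ← Finset.sum_div, Finset.sum_comm]
    rw [h2]
    refine (Finset.abs_sum_le_sum_abs _ _).trans ((Finset.sum_le_sum fun ω _ => h1 ω).trans ?_)
    rw [Finset.sum_add_distrib, ← Finset.mul_sum, ← Finset.mul_sum]
    have h3 : ∑ ω, (max (a ω x) (a ω y) * dd p u x y / J) ^ p ≤
        2 * Λ * (D x y / (J:ℝ) ^ p) := by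
      have h4 : ∀ ω, (max (a ω x) (a ω y) * dd p u x y / J) ^ p ≤
          (a ω x ^ p + a ω y ^ p) * (D x y / (J:ℝ) ^ p) := by
        intro ω
        have h5 : 0 ≤ max (a ω x) (a ω y) := (ha0 ω x).trans (le_max_left _ _)
        rw [mul_div_assoc, Real.mul_rpow h5 (div_nonneg (dd_nonneg u x y) hJ0.le),
          Real.div_rpow (dd_nonneg u x y) hJ0.le, hdD]
        apply mul_le_mul_of_nonneg_right (max_rpow_le (ha0 ω x) (ha0 ω y))
        exact div_nonneg (hD0 x y) (by positivity)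
      refine (Finset.sum_le_sum fun ω _ => h4 ω).trans ?_
      rw [← Finset.sum_mul, Finset.sum_add_distrib]
      apply mul_le_mul_of_nonneg_right _ (div_nonneg (hD0 x y) (by positivity))
      linarith [haΛ x, haΛ y]
    have h6 := mul_le_mul_of_nonneg_left h3 hC
    have h7 : C * (2 * Λ * (D x y / (J:ℝ) ^ p)) ≤ ε * D x y := by
      have h8 : C * (2 * Λ * (D x y / (J:ℝ) ^ p)) = (2 * C * Λ) * (D x y / (J:ℝ) ^ p) := by ring
      rw [h8]
      have h9 : 0 < (J:ℝ) ^ p := by positivity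
      calc (2 * C * Λ) * (D x y / (J:ℝ) ^ p) ≤ (ε * (J:ℝ) ^ p) * (D x y / (J:ℝ) ^ p) :=
            mul_le_mul_of_nonneg_right hJΛ (div_nonneg (hD0 x y) h9.le)
        _ = ε * D x y := by field_simp
    have h10 : ∑ ω, |u ω x - u ω y| ^ p = D x y := rfl
    rw [h10]
    linarith
  have hsumparts : ∀ x y, ∑ s ∈ range M, ∑ ω, parts p M J Lv (fun j => v ω j x - v ω j y) s ≤
      3 * M * D x y := by
    intro x y
    have h1 := (abs_le.1 (hnear x y)).2
    have h2 : (∑ s ∈ range M, ∑ ω, parts p M J Lv (fun j => v ω j x - v ω j y) s) / M ≤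
        3 * D x y := by
      have := mul_le_mul_of_nonneg_right hε1 (hD0 x y)
      linarith
    rw [div_le_iff₀ hM0] at h2
    linarith
  have hprtsub : ∀ ω s l x y, prt M J Lv (fun j => v ω j x) s l - prt M J Lv (fun j => v ω j y) s l =
      prt M J Lv (fun j => v ω j x - v ω j y) s l := fun ω s l x y => (prt_sub _ _ _ _ _ _ _).symm
  -- the parts
  have hGex : ∀ i : Fin M × Fin (Lv + 1), ∃ (N : ℕ) (G : X → Fin N → ℝ),
      (N : ℝ) ≤ (c * (2 ^ (p * (2 * M * J + 1)) * Λ) * (3 * M) *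
        Real.log (Fintype.card X + 2) / (ε / (Lv + 1))) ^ c ∧
      ∀ x y, |∑ k, |G x k - G y k| ^ p -
        ∑ ω, |prt M J Lv (fun j => v ω j x) i.1 i.2 - prt M J Lv (fun j => v ω j y) i.1 i.2| ^ p| ≤
          (ε / (Lv + 1)) * dd p u x y ^ p := by
    rintro ⟨s, l⟩
    simp only
    apply hpart X Ω (dd p u) (dd_nonneg u) (fun ω x => prt M J Lv (fun j => v ω j x) s l)
      (fun ω => 2 ^ p * T ω * ((1 / 2 : ℝ) ^ (jmin M J s l)) ^ p)
    · intro ω
      have := hT0 ω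
      positivity
    · intro ω x y
      rw [hprtsub]
      have h1 : |prt M J Lv (fun j => v ω j x - v ω j y) s l| ≤
          2 * (B ω * (1 / 2) ^ (jmin M J s l) * dd p u x y) := by
        apply prt_abs_le hJ
        intro j hj
        refine (hv1 ω j x y).trans ?_
        apply mul_le_mul_of_nonneg_right _ (dd_nonneg u x y)
        apply mul_le_mul_of_nonneg_left _ (hB0 ω)
        exact pow_le_pow_of_le_one (by norm_num) (by norm_num) hj
      have h2 := Real.rpow_le_rpow (abs_nonneg _) h1 hp0.le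
      have h3 : 0 ≤ B ω * (1 / 2) ^ (jmin M J s l) := mul_nonneg (hB0 ω) (by positivity)
      rw [Real.mul_rpow (by norm_num) (mul_nonneg h3 (dd_nonneg u x y)),
        Real.mul_rpow h3 (dd_nonneg u x y), Real.mul_rpow (hB0 ω) (by positivity), hBp] at h2
      refine h2.trans (le_of_eq ?_)
      ring
    · have h1 : (1:ℝ) ≤ 2 ^ (p * (2 * M * J + 1)) :=
        Real.one_le_rpow (by norm_num) (by positivity)
      exact one_le_mul_of_one_le_of_one_le h1 hΛ
    · linarith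
    · positivity
    · rw [div_le_one hL0]
      have : (0:ℝ) ≤ Lv := by positivity
      linarith
    · intro x
      exact load_le hp hM hJ u a hΛ ha0 haΛ hLv (fun ω => rfl) hB0 hBp hv2 s.2
        (by have := l.2; omega) x
    · intro x y
      simp only [hprtsub]
      rw [hdD]
      refine le_trans ?_ (hsumparts x y)
      have h1 : ∀ ω, |prt M J Lv (fun j => v ω j x - v ω j y) s l| ^ p ≤
          parts p M J Lv (fun j => v ω j x - v ω j y) s := by
        intro ω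
        rw [parts_eq_prt]
        exact Finset.single_le_sum
          (f := fun l => |prt M J Lv (fun j => v ω j x - v ω j y) s l| ^ p)
          (fun l _ => by positivity) (mem_range.2 l.2)
      refine (Finset.sum_le_sum fun ω _ => h1 ω).trans ?_
      exact Finset.single_le_sum
        (f := fun s => ∑ ω, parts p M J Lv (fun j => v ω j x - v ω j y) s)
        (fun s _ => Finset.sum_nonneg fun ω _ => by
          rw [parts_eq_prt]; exact Finset.sum_nonneg fun l _ => by positivity)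
        (mem_range.2 s.2)
  choose N G hN hG using hGex
  obtain ⟨F, hF⟩ := concat p N G
  refine ⟨∑ i, N i, fun x k => F x k / (M:ℝ) ^ (1 / p), ?_, ?_⟩
  · push_cast
    refine (Finset.sum_le_sum fun i _ => hN i).trans (le_of_eq ?_)
    rw [Finset.sum_const, card_univ, Fintype.card_prod, Fintype.card_fin, Fintype.card_fin,
      nsmul_eq_mul]
    push_cast
    ring
  · intro x y
    have h1 : ∑ k, |F x k / (M:ℝ) ^ (1 / p) - F y k / (M:ℝ) ^ (1 / p)| ^ p =
        (∑ i, ∑ k, |G i x k - G i y k| ^ p) / M := by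
      rw [← hF, Finset.sum_div]
      refine Finset.sum_congr rfl fun k _ => ?_
      rw [← sub_div, abs_div, Real.div_rpow (abs_nonneg _) (abs_nonneg _),
        abs_of_pos (by positivity : (0:ℝ) < (M:ℝ) ^ (1 / p)), ← Real.rpow_mul hM0.le,
        one_div_mul_cancel hp0.ne', Real.rpow_one]
    have h2 : (∑ s ∈ range M, ∑ ω, parts p M J Lv (fun j => v ω j x - v ω j y) s) =
        ∑ i : Fin M × Fin (Lv + 1), ∑ ω,
          |prt M J Lv (fun j => v ω j x) i.1 i.2 - prt M J Lv (fun j => v ω j y) i.1 i.2| ^ p := by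
      rw [Fintype.sum_prod_type, ← Fin.sum_univ_eq_sum_range (fun s => ∑ ω, parts p M J Lv
        (fun j => v ω j x - v ω j y) s)]
      refine Finset.sum_congr rfl fun s _ => ?_
      rw [Finset.sum_comm]
      refine Finset.sum_congr rfl fun ω _ => ?_
      rw [parts_eq_prt, ← Fin.sum_univ_eq_sum_range (fun l => |prt M J Lv
        (fun j => v ω j x - v ω j y) s l| ^ p)]
      refine Finset.sum_congr rfl fun l _ => ?_
      rw [hprtsub]
    have h3 := hnear x y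
    rw [h1]
    have h4 : |(∑ i, ∑ k, |G i x k - G i y k| ^ p) / M -
        (∑ s ∈ range M, ∑ ω, parts p M J Lv (fun j => v ω j x - v ω j y) s) / M| ≤
        ε * D x y := by
      rw [h2, ← sub_div, ← Finset.sum_sub_distrib, abs_div, abs_of_pos hM0, div_le_iff₀ hM0]
      refine (Finset.abs_sum_le_sum_abs _ _).trans
        ((Finset.sum_le_sum fun i _ => hG i x y).trans ?_)
      rw [Finset.sum_const, card_univ, Fintype.card_prod, Fintype.card_fin, Fintype.card_fin,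
        nsmul_eq_mul, hdD]
      push_cast
      apply le_of_eq
      field_simp
    have h5 : (∑ i, ∑ k, |G i x k - G i y k| ^ p) / M - D x y =
        ((∑ i, ∑ k, |G i x k - G i y k| ^ p) / M -
          (∑ s ∈ range M, ∑ ω, parts p M J Lv (fun j => v ω j x - v ω j y) s) / M) +
        ((∑ s ∈ range M, ∑ ω, parts p M J Lv (fun j => v ω j x - v ω j y) s) / M - D x y) := by
      ring
    have h6 : ∑ ω, |u ω x - u ω y| ^ p = D x y := rfl
    rw [h6, h5]
    refine (abs_add_le _ _).trans ?_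
    linarith

end Vale.Agent.P249C
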