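import Mathlib

/-!
P249C, module MZ: the signed power `sgn(s) |s|^(p/2)` and its centre.
-/

open Finset

namespace Vale.Agent.P249C

/-- `sgn(s) |s|^{p/2}` -/
noncomputable def mz (p s : ℝ) : ℝ := (max s 0) ^ (p / 2) - (max (-s) 0) ^ (p / 2)

lemma mz_of_nonneg {p : ℝ} (hp : 0 < p) {s : ℝ} (hs : 0 ≤ s) : mz p s = s ^ (p / 2) := by
  unfold mz
  rw [max_eq_left hs, max_eq_right (by linarith : -s ≤ 0), Real.zero_rpow (by positivity),
    sub_zero]

lemma mz_neg (p s : ℝ) : mz p (-s) = -mz p s := by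
  unfold mz
  rw [neg_neg]
  ring

lemma abs_mz {p : ℝ} (hp : 0 < p) (s : ℝ) : |mz p s| = |s| ^ (p / 2) := by
  rcases le_total 0 s with hs | hs
  · rw [mz_of_nonneg hp hs, abs_of_nonneg hs, abs_of_nonneg (Real.rpow_nonneg hs _)]
  · have h1 : 0 ≤ -s := by linarith
    have h2 := mz_neg p (-s)
    rw [neg_neg] at h2
    rw [h2, abs_neg, mz_of_nonneg hp h1, abs_of_nonneg (Real.rpow_nonneg h1 _),
      abs_of_nonpos hs]

lemma mz_sq {p : ℝ} (hp : 0 < p) (s : ℝ) : mz p s ^ 2 = |s| ^ p := by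
  rw [← sq_abs, abs_mz hp, ← Real.rpow_natCast, ← Real.rpow_mul (abs_nonneg s)]
  congr 1
  push_cast
  ring

lemma mz_continuous {p : ℝ} (hp : 0 < p) : Continuous (mz p) := by
  unfold mz
  have hp2 : 0 ≤ p / 2 := by positivity
  refine Continuous.sub ?_ ?_
  · exact (continuous_id.max continuous_const).rpow_const fun _ => Or.inr hp2
  · exact (continuous_neg.max continuous_const).rpow_const fun _ => Or.inr hp2

lemma mz_nonneg {p : ℝ} (hp : 0 < p) {s : ℝ} (hs : 0 ≤ s) : 0 ≤ mz p s := by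
  rw [mz_of_nonneg hp hs]
  exact Real.rpow_nonneg hs _

lemma mz_nonpos {p : ℝ} (hp : 0 < p) {s : ℝ} (hs : s ≤ 0) : mz p s ≤ 0 := by
  have h1 := mz_nonneg hp (show 0 ≤ -s by linarith)
  rw [mz_neg] at h1
  linarith

/-- the centre: `L`-average of `mz (u - m)` vanishes -/
theorem exists_ctr {X : Type} [Fintype X] [Nonempty X] {p : ℝ} (hp : 0 < p) (L u : X → ℝ)
    (hL : ∀ x, 0 ≤ L x) :
    ∃ m : ℝ, (∀ x, ∃ y, |u x - m| ≤ |u x - u y|) ∧ ∑ x, L x * mz p (u x - m) = 0 := by
  obtain ⟨x0, hx0⟩ := Finite.exists_min u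
  obtain ⟨x1, hx1⟩ := Finite.exists_max u
  have hcont : Continuous fun m : ℝ => ∑ x, L x * mz p (u x - m) := by
    refine continuous_finsetSum _ fun x _ => ?_
    exact continuous_const.mul ((mz_continuous hp).comp (continuous_const.sub continuous_id))
  have h0 : 0 ≤ ∑ x, L x * mz p (u x - u x0) :=
    Finset.sum_nonneg fun x _ => mul_nonneg (hL x) (mz_nonneg hp (sub_nonneg.2 (hx0 x)))
  have h1 : ∑ x, L x * mz p (u x - u x1) ≤ 0 :=
    Finset.sum_nonpos fun x _ => mul_nonpos_of_nonneg_of_nonpos (hL x)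
      (mz_nonpos hp (sub_nonpos.2 (hx1 x)))
  have hle : u x0 ≤ u x1 := hx0 x1
  have hivt := intermediate_value_Icc' hle hcont.continuousOn
  obtain ⟨m, hm, hm0⟩ := hivt (Set.mem_Icc.2 ⟨h1, h0⟩)
  refine ⟨m, fun x => ?_, hm0⟩
  rcases le_total m (u x) with hmx | hmx
  · refine ⟨x0, ?_⟩
    rw [abs_of_nonneg (sub_nonneg.2 hmx), abs_of_nonneg (sub_nonneg.2 (hx0 x))]
    linarith [hm.1]
  · refine ⟨x1, ?_⟩
    rw [abs_of_nonpos (sub_nonpos.2 hmx), abs_of_nonpos (sub_nonpos.2 (hx1 x))]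
    linarith [hm.2]

lemma mz_sub_aux {p : ℝ} (hp : 0 < p) (Φ : ℝ → ℝ → ℝ) (hsymm : ∀ a b, Φ a b = Φ b a)
    (hneg : ∀ a b, Φ (-a) (-b) = Φ a b)
    (h1 : ∀ a b, 0 ≤ b → b ≤ a → a ^ (p / 2) - b ^ (p / 2) ≤ Φ a b)
    (h2 : ∀ a b, 0 ≤ a → 0 ≤ b → a ^ (p / 2) + b ^ (p / 2) ≤ Φ a (-b)) (a b : ℝ) :
    |mz p a - mz p b| ≤ Φ a b := by
  have hp2 : 0 ≤ p / 2 := by positivity
  have key1 : ∀ a b, 0 ≤ a → 0 ≤ b → |mz p a - mz p b| ≤ Φ a b := by
    intro a b ha hb
    rw [mz_of_nonneg hp ha, mz_of_nonneg hp hb]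
    rcases le_total b a with hab | hab
    · rw [abs_of_nonneg (sub_nonneg.2 (Real.rpow_le_rpow hb hab hp2))]
      exact h1 a b hb hab
    · rw [abs_sub_comm, abs_of_nonneg (sub_nonneg.2 (Real.rpow_le_rpow ha hab hp2)), hsymm]
      exact h1 b a ha hab
  have key2 : ∀ a b, 0 ≤ a → 0 ≤ b → |mz p a - mz p (-b)| ≤ Φ a (-b) := by
    intro a b ha hb
    rw [mz_neg, mz_of_nonneg hp ha, mz_of_nonneg hp hb, sub_neg_eq_add,
      abs_of_nonneg (add_nonneg (Real.rpow_nonneg ha _) (Real.rpow_nonneg hb _))]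
    exact h2 a b ha hb
  rcases le_total 0 a with ha | ha
  · rcases le_total 0 b with hb | hb
    · exact key1 a b ha hb
    · have h3 := key2 a (-b) ha (by linarith)
      rwa [neg_neg] at h3
  · rcases le_total 0 b with hb | hb
    · have h3 := key2 b (-a) hb (by linarith)
      rw [neg_neg] at h3
      rw [abs_sub_comm, hsymm]
      exact h3
    · have h3 := key1 (-a) (-b) (by linarith) (by linarith)
      rw [mz_neg, mz_neg, hneg] at h3
      have e : -mz p a - -mz p b = -(mz p a - mz p b) := by ring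
      rw [e, abs_neg] at h3
      exact h3

lemma mz_sub_le_small {p : ℝ} (hp : 0 < p) (hp2 : p ≤ 2) (a b : ℝ) :
    |mz p a - mz p b| ≤ 2 * |a - b| ^ (p / 2) := by
  refine mz_sub_aux hp (fun a b => 2 * |a - b| ^ (p / 2)) (fun a b => ?_) (fun a b => ?_)
    (fun a b hb hab => ?_) (fun a b ha hb => ?_) a b
  · simp only [abs_sub_comm]
  · have e : -a - -b = -(a - b) := by ring
    simp only [e, abs_neg]
  · have hd : 0 ≤ a - b := by linarith
    have h3 := Real.rpow_add_le_add_rpow (p := p / 2) hd hb (by positivity) (by linarith)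
    rw [sub_add_cancel] at h3
    simp only [abs_of_nonneg hd]
    have h4 := Real.rpow_nonneg hd (p / 2)
    linarith
  · have hab : 0 ≤ a - -b := by linarith
    simp only [abs_of_nonneg hab]
    have h3 : a ^ (p / 2) ≤ (a - -b) ^ (p / 2) :=
      Real.rpow_le_rpow ha (by linarith) (by positivity)
    have h4 : b ^ (p / 2) ≤ (a - -b) ^ (p / 2) :=
      Real.rpow_le_rpow hb (by linarith) (by positivity)
    linarith

lemma rpow_sub_rpow_le {α : ℝ} (hα : 1 ≤ α) {x y : ℝ} (hy : 0 ≤ y) (hyx : y ≤ x) :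
    x ^ α - y ^ α ≤ α * (x - y) * x ^ (α - 1) := by
  rcases hy.eq_or_lt with h0 | h0
  · rcases hyx.eq_or_lt with h1 | h1
    · rw [h1, sub_self, sub_self]
      simp
    · have hx : 0 < x := by linarith
      rw [← h0, Real.zero_rpow (by linarith), sub_zero, sub_zero]
      have e : x ^ α = x * x ^ (α - 1) := by
        rw [Real.rpow_sub_one hx.ne']
        field_simp
      rw [e]
      have h2 : 0 ≤ x * x ^ (α - 1) := by positivity
      nlinarith
  · have hx : 0 < x := by linarith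
    have hs : -1 ≤ (y - x) / x := by
      rw [le_div_iff₀ hx]
      linarith
    have h1 := one_add_mul_self_le_rpow_one_add hs hα
    have e1 : 1 + (y - x) / x = y / x := by field_simp; ring
    rw [e1, Real.div_rpow hy hx.le, le_div_iff₀ (by positivity)] at h1
    have e2 : (1 + α * ((y - x) / x)) * x ^ α = x ^ α + α * (y - x) * x ^ (α - 1) := by
      rw [Real.rpow_sub_one hx.ne']
      field_simp
    rw [e2] at h1
    linarith

lemma mz_sub_le_large {p : ℝ} (hp2 : 2 ≤ p) (a b : ℝ) :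
    |mz p a - mz p b| ≤ p / 2 * |a - b| * (max |a| |b|) ^ (p / 2 - 1) := by
  have hp : 0 < p := by linarith
  refine mz_sub_aux hp (fun a b => p / 2 * |a - b| * (max |a| |b|) ^ (p / 2 - 1))
    (fun a b => ?_) (fun a b => ?_) (fun a b hb hab => ?_) (fun a b ha hb => ?_) a b
  · simp only [abs_sub_comm a b, max_comm |a| |b|]
  · have e : -a - -b = -(a - b) := by ring
    simp only [e, abs_neg]
  · have hd : 0 ≤ a - b := by linarith
    have ha : 0 ≤ a := by linarith
    simp only [abs_of_nonneg hd, abs_of_nonneg ha, abs_of_nonneg hb, max_eq_left hab]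
    exact rpow_sub_rpow_le (by linarith) hb hab
  · have hab : 0 ≤ a - -b := by linarith
    simp only [abs_neg, abs_of_nonneg hab, abs_of_nonneg ha, abs_of_nonneg hb]
    have key : ∀ x, 0 ≤ x → x ≤ max a b → x ^ (p / 2) ≤ x * (max a b) ^ (p / 2 - 1) := by
      intro x hx hxm
      rcases hx.eq_or_lt with h0 | h0
      · rw [← h0, Real.zero_rpow (by positivity), zero_mul]
      · have e : x ^ (p / 2) = x * x ^ (p / 2 - 1) := by
          rw [Real.rpow_sub_one h0.ne']
          field_simp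
        rw [e]
        exact mul_le_mul_of_nonneg_left (Real.rpow_le_rpow hx hxm (by linarith)) hx
    have h3 := key a ha (le_max_left a b)
    have h4 := key b hb (le_max_right a b)
    have h5 : 0 ≤ (a - -b) * (max a b) ^ (p / 2 - 1) :=
      mul_nonneg hab (Real.rpow_nonneg (ha.trans (le_max_left a b)) _)
    have h6 : (a - -b) * (max a b) ^ (p / 2 - 1) ≤
        p / 2 * ((a - -b) * (max a b) ^ (p / 2 - 1)) := by
      nlinarith
    calc a ^ (p / 2) + b ^ (p / 2)
        ≤ a * (max a b) ^ (p / 2 - 1) + b * (max a b) ^ (p / 2 - 1) := add_le_add h3 h4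
      _ = (a - -b) * (max a b) ^ (p / 2 - 1) := by ring
      _ ≤ p / 2 * ((a - -b) * (max a b) ^ (p / 2 - 1)) := h6
      _ = p / 2 * (a - -b) * (max a b) ^ (p / 2 - 1) := by ring

/-- for `p ≤ 2` the exponent of `θ` is `0` -/
theorem mz_diff (p : ℝ) (hp : 1 ≤ p) : ∃ C : ℝ, 1 ≤ C ∧ ∀ a b θ : ℝ, 0 < θ → θ ≤ 1 →
    (mz p a - mz p b) ^ 2 ≤
      C * (θ ^ (-(max 0 ((p - 2) / 2))) * |a - b| ^ p + θ * |a| ^ p) := by
  have hp0 : 0 < p := by linarith
  rcases le_or_gt p 2 with hp2 | hp2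
  · refine ⟨4, by norm_num, fun a b θ hθ hθ1 => ?_⟩
    rw [max_eq_left (by linarith), neg_zero, Real.rpow_zero, one_mul]
    have h1 := mz_sub_le_small hp0 hp2 a b
    have h2 : (mz p a - mz p b) ^ 2 ≤ (2 * |a - b| ^ (p / 2)) ^ 2 := by
      rw [← sq_abs]
      exact pow_le_pow_left₀ (abs_nonneg _) h1 2
    have e : (2 * |a - b| ^ (p / 2)) ^ 2 = 4 * |a - b| ^ p := by
      rw [mul_pow, ← Real.rpow_natCast, ← Real.rpow_natCast, ← Real.rpow_mul (abs_nonneg _)]
      have e1 : p / 2 * ((2 : ℕ) : ℝ) = p := by push_cast; ring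
      rw [e1]
      norm_num
    rw [e] at h2
    have h3 : 0 ≤ θ * |a| ^ p := mul_nonneg hθ.le (Real.rpow_nonneg (abs_nonneg _) _)
    linarith
  · have hC : (1 : ℝ) ≤ (p / 2) ^ 2 * 2 ^ (p - 2) := by
      have h1 : (1 : ℝ) ≤ (p / 2) ^ 2 := one_le_pow₀ (by linarith)
      have h2 : (1 : ℝ) ≤ 2 ^ (p - 2) := Real.one_le_rpow (by norm_num) (by linarith)
      nlinarith
    refine ⟨(p / 2) ^ 2 * 2 ^ (p - 2), hC, fun a b θ hθ hθ1 => ?_⟩
    rw [max_eq_right (by linarith : (0 : ℝ) ≤ (p - 2) / 2)]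
    set D := |a - b| with hD
    have hD0 : 0 ≤ D := abs_nonneg _
    have hA0 : 0 ≤ |a| := abs_nonneg a
    set M := max |a| |b| with hM
    have hM0 : 0 ≤ M := hA0.trans (le_max_left _ _)
    have h1 := mz_sub_le_large hp2.le a b
    have h2 : (mz p a - mz p b) ^ 2 ≤ (p / 2) ^ 2 * (D ^ 2 * M ^ (p - 2)) := by
      have h3 : (mz p a - mz p b) ^ 2 ≤ (p / 2 * D * M ^ (p / 2 - 1)) ^ 2 := by
        rw [← sq_abs]
        exact pow_le_pow_left₀ (abs_nonneg _) h1 2
      have e : (M ^ (p / 2 - 1)) ^ 2 = M ^ (p - 2) := by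
        rw [← Real.rpow_natCast, ← Real.rpow_mul hM0]
        congr 1
        push_cast
        ring
      rw [mul_pow, mul_pow, e] at h3
      linarith
    have hMb : M ≤ 2 * max |a| D := by
      have h4 : |b| ≤ |a| + D := by
        have h5 : b = a - (a - b) := by ring
        calc |b| = |a - (a - b)| := by rw [← h5]
          _ ≤ |a| + |a - b| := abs_sub _ _
      have h6 := le_max_left |a| D
      have h7 := le_max_right |a| D
      refine max_le ?_ ?_ <;> linarith
    have hm0 : 0 ≤ max |a| D := hA0.trans (le_max_left _ _)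
    have h3 : M ^ (p - 2) ≤ 2 ^ (p - 2) * (max |a| D) ^ (p - 2) := by
      rw [← Real.mul_rpow (by norm_num) hm0]
      exact Real.rpow_le_rpow hM0 hMb (by linarith)
    have hDp : D ^ 2 * D ^ (p - 2) = D ^ p := by
      rcases hD0.eq_or_lt with h0 | h0
      · rw [← h0, Real.zero_rpow hp0.ne']
        ring
      · rw [← Real.rpow_natCast, ← Real.rpow_add h0]
        congr 1
        push_cast
        ring
    have hθp : 1 ≤ θ ^ (-((p - 2) / 2)) :=
      Real.one_le_rpow_of_pos_of_le_one_of_nonpos hθ hθ1 (by linarith)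
    have hDpn : 0 ≤ D ^ p := Real.rpow_nonneg hD0 _
    have hApn : 0 ≤ |a| ^ p := Real.rpow_nonneg hA0 _
    have hfin : D ^ 2 * (max |a| D) ^ (p - 2) ≤
        θ ^ (-((p - 2) / 2)) * D ^ p + θ * |a| ^ p := by
      rcases le_total |a| D with h4 | h4
      · rw [max_eq_right h4, hDp]
        nlinarith [mul_nonneg hθ.le hApn]
      · rw [max_eq_left h4]
        rcases le_total (D ^ 2) (θ * |a| ^ 2) with h5 | h5
        · have h6 : D ^ 2 * |a| ^ (p - 2) ≤ θ * |a| ^ 2 * |a| ^ (p - 2) :=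
            mul_le_mul_of_nonneg_right h5 (Real.rpow_nonneg hA0 _)
          have e : |a| ^ 2 * |a| ^ (p - 2) = |a| ^ p := by
            rcases hA0.eq_or_lt with h0 | h0
            · rw [← h0, Real.zero_rpow hp0.ne']
              ring
            · rw [← Real.rpow_natCast, ← Real.rpow_add h0]
              congr 1
              push_cast
              ring
          rw [mul_assoc, e] at h6
          have h7 : 0 ≤ θ ^ (-((p - 2) / 2)) * D ^ p := by positivity
          linarith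
        · have h6 : |a| ^ 2 ≤ D ^ 2 / θ := by
            rw [le_div_iff₀ hθ]
            linarith
          have h7 : |a| ^ (p - 2) = (|a| ^ 2) ^ ((p - 2) / 2) := by
            rw [← Real.rpow_natCast, ← Real.rpow_mul hA0]
            congr 1
            push_cast
            ring
          have h8 : (|a| ^ 2) ^ ((p - 2) / 2) ≤ (D ^ 2 / θ) ^ ((p - 2) / 2) :=
            Real.rpow_le_rpow (by positivity) h6 (by linarith)
          have h9 : (D ^ 2 / θ) ^ ((p - 2) / 2) = D ^ (p - 2) * θ ^ (-((p - 2) / 2)) := by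
            rw [Real.div_rpow (by positivity) hθ.le, Real.rpow_neg hθ.le, div_eq_mul_inv]
            congr 1
            rw [← Real.rpow_natCast, ← Real.rpow_mul hD0]
            congr 1
            push_cast
            ring
          rw [h7]
          calc D ^ 2 * (|a| ^ 2) ^ ((p - 2) / 2)
              ≤ D ^ 2 * (D ^ (p - 2) * θ ^ (-((p - 2) / 2))) := by
                rw [← h9]
                exact mul_le_mul_of_nonneg_left h8 (by positivity)
            _ = θ ^ (-((p - 2) / 2)) * D ^ p := by rw [← hDp]; ring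
            _ ≤ θ ^ (-((p - 2) / 2)) * D ^ p + θ * |a| ^ p :=
                le_add_of_nonneg_right (by positivity)
    calc (mz p a - mz p b) ^ 2 ≤ (p / 2) ^ 2 * (D ^ 2 * M ^ (p - 2)) := h2
      _ ≤ (p / 2) ^ 2 * (D ^ 2 * (2 ^ (p - 2) * (max |a| D) ^ (p - 2))) := by gcongr
      _ = (p / 2) ^ 2 * 2 ^ (p - 2) * (D ^ 2 * (max |a| D) ^ (p - 2)) := by ring
      _ ≤ (p / 2) ^ 2 * 2 ^ (p - 2) *
          (θ ^ (-((p - 2) / 2)) * D ^ p + θ * |a| ^ p) := by gcongr

end Vale.Agent.P249C
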