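import Mathlib
import Vale.Agent.Lib.P249C.Mz

/-!
P249C: sequential binary observations with adaptively centred features.
-/

open Finset

namespace Vale.Agent.P249C

section ineq

lemma ent_gain_aux {s : ℝ} (h0 : 0 ≤ s) (hs : s ≤ 1 / 2) :
    s ^ 2 / 3 ≤ (1 + s) * Real.log (1 + s) + (1 - s) * Real.log (1 - s) := by
  have h1 : 2 * s / (s + 2) ≤ Real.log (1 + s) := Real.le_log_one_add_of_nonneg h0
  have h2 : 1 - (1 - s)⁻¹ ≤ Real.log (1 - s) := Real.one_sub_inv_le_log_of_pos (by linarith)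
  have h3 : (1 + s) * (2 * s / (s + 2)) ≤ (1 + s) * Real.log (1 + s) :=
    mul_le_mul_of_nonneg_left h1 (by linarith)
  have h4 : (1 - s) * (1 - (1 - s)⁻¹) ≤ (1 - s) * Real.log (1 - s) :=
    mul_le_mul_of_nonneg_left h2 (by linarith)
  have h5 : (1 - s) * (1 - (1 - s)⁻¹) = -s := by
    have : (1 - s) ≠ 0 := by linarith
    field_simp; ring
  have h6 : (1 + s) * (2 * s / (s + 2)) - s = s ^ 2 / (s + 2) := by
    have : s + 2 ≠ 0 := by linarith
    field_simp; ring
  have h7 : s ^ 2 / 3 ≤ s ^ 2 / (s + 2) :=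
    div_le_div_of_nonneg_left (sq_nonneg s) (by linarith) (by linarith)
  linarith

lemma ent_gain {s : ℝ} (hs : |s| ≤ 1 / 2) :
    s ^ 2 / 3 ≤ (1 + s) * Real.log (1 + s) + (1 - s) * Real.log (1 - s) := by
  rcases le_total 0 s with h | h
  · rw [abs_of_nonneg h] at hs
    exact ent_gain_aux h hs
  · rw [abs_of_nonpos h] at hs
    have h1 := ent_gain_aux (s := -s) (by linarith) hs
    rw [neg_sq, ← sub_eq_add_neg, sub_neg_eq_add] at h1
    linarith

lemma sqrt_aux {a b : ℝ} (ha : |a| ≤ 1 / 4) (hb : |b| ≤ 1 / 4) :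
    (1 + a + b) - 2 * (a - b) ^ 2 ≤ √((1 + 2 * a) * (1 + 2 * b)) := by
  obtain ⟨ha1, ha2⟩ := abs_le.1 ha
  obtain ⟨hb1, hb2⟩ := abs_le.1 hb
  apply Real.le_sqrt_of_sq_le
  have e : (1 + 2 * a) * (1 + 2 * b) = (1 + a + b) ^ 2 - (a - b) ^ 2 := by ring
  rw [e]
  have hδ : 0 ≤ (a - b) ^ 2 := sq_nonneg _
  have h1 : 4 * (a - b) ^ 2 + 1 ≤ 4 * (1 + a + b) := by
    nlinarith [mul_nonneg (by linarith : 0 ≤ a + 1 / 4) (by linarith : 0 ≤ 1 / 4 - a),
      mul_nonneg (by linarith : 0 ≤ b + 1 / 4) (by linarith : 0 ≤ 1 / 4 - b),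
      mul_nonneg (by linarith : 0 ≤ a + 1 / 4) (by linarith : 0 ≤ b + 1 / 4)]
  nlinarith

lemma sqrt_gain {A B a b : ℝ} (hA : 0 ≤ A) (hB : 0 ≤ B) (ha : |a| ≤ 1 / 4) (hb : |b| ≤ 1 / 4) :
    √(A * B) - (A + B) * (a - b) ^ 2 ≤
      1 / 2 * (√((A * (1 + 2 * a)) * (B * (1 + 2 * b))) +
        √((A * (1 - 2 * a)) * (B * (1 - 2 * b)))) := by
  have hAB : 0 ≤ A * B := mul_nonneg hA hB
  have e1 : (A * (1 + 2 * a)) * (B * (1 + 2 * b)) = (A * B) * ((1 + 2 * a) * (1 + 2 * b)) := by ring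
  have e2 : (A * (1 - 2 * a)) * (B * (1 - 2 * b)) =
      (A * B) * ((1 + 2 * (-a)) * (1 + 2 * (-b))) := by ring
  rw [e1, e2, Real.sqrt_mul hAB, Real.sqrt_mul hAB]
  have h1 := sqrt_aux ha hb
  have h2 := sqrt_aux (a := -a) (b := -b) (by rwa [abs_neg]) (by rwa [abs_neg])
  have hs : 0 ≤ √(A * B) := Real.sqrt_nonneg _
  have h3 := mul_le_mul_of_nonneg_left h1 hs
  have h4 := mul_le_mul_of_nonneg_left h2 hs
  have h5 : √(A * B) ≤ (A + B) / 2 := by
    rw [Real.sqrt_le_left (by linarith)]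
    nlinarith [sq_nonneg (A - B)]
  have h6 : √(A * B) * (a - b) ^ 2 ≤ (A + B) / 2 * (a - b) ^ 2 :=
    mul_le_mul_of_nonneg_right h5 (sq_nonneg _)
  have h7 : (-a - -b) ^ 2 = (a - b) ^ 2 := by ring
  rw [h7] at h4
  nlinarith

lemma sqrt_le_min {A B : ℝ} (hA : 0 ≤ A) (hB : 0 ≤ B) :
    √(A * B) ≤ 2 * min A B + (A + B) / 8 := by
  have hm : 0 ≤ min A B := le_min hA hB
  rw [Real.sqrt_le_left (by positivity)]
  have h1 : A * B = min A B * max A B := (min_mul_max A B).symm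
  have h2 : A + B = min A B + max A B := (min_add_max A B).symm
  rw [h1, h2]
  nlinarith [sq_nonneg (2 * min A B - max A B / 8), sq_nonneg (min A B),
    mul_nonneg hm (hA.trans (le_max_left A B))]

end ineq

section process

variable {X Ω : Type} [Fintype X] [DecidableEq Ω] {p : ℝ}

open Classical in
/-- the centre -/
noncomputable def ctr (p : ℝ) (L u : X → ℝ) : ℝ :=
  if h : ∃ m : ℝ, (∀ x, ∃ y, |u x - m| ≤ |u x - u y|) ∧ ∑ x, L x * mz p (u x - m) = 0 then
    h.choose else 0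

/-- the likelihoods after one observation of strength `κ` -/
noncomputable def stp (p κ : ℝ) (L u : X → ℝ) : X → ℝ :=
  fun x => L x * (1 + 2 * (κ * mz p (u x - ctr p L u)))

/-- energy of the coordinate `ω` at `x` -/
noncomputable def En (p : ℝ) (u : Ω → X → ℝ) (ω : Ω) (x : X) : List (Ω × ℝ) → (X → ℝ) → ℝ
  | [], _ => 0
  | s :: S, L => (if s.1 = ω then s.2 ^ 2 * (L x * |u s.1 x - ctr p L (u s.1)| ^ p) else 0) +
      1 / 2 * (En p u ω x S (stp p s.2 L (u s.1)) + En p u ω x S (stp p (-s.2) L (u s.1)))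

/-- expected final minimum -/
noncomputable def Mn (p : ℝ) (u : Ω → X → ℝ) (x z : X) : List (Ω × ℝ) → (X → ℝ) → ℝ
  | [], L => min (L x) (L z)
  | s :: S, L => 1 / 2 * (Mn p u x z S (stp p s.2 L (u s.1)) + Mn p u x z S (stp p (-s.2) L (u s.1)))

/-- expected final affinity -/
noncomputable def Af (p : ℝ) (u : Ω → X → ℝ) (x z : X) : List (Ω × ℝ) → (X → ℝ) → ℝ
  | [], L => √(L x * L z)
  | s :: S, L => 1 / 2 * (Af p u x z S (stp p s.2 L (u s.1)) + Af p u x z S (stp p (-s.2) L (u s.1)))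

/-- loss of affinity -/
noncomputable def Qf (p : ℝ) (u : Ω → X → ℝ) (x z : X) : List (Ω × ℝ) → (X → ℝ) → ℝ
  | [], _ => 0
  | s :: S, L => (L x + L z) * (s.2 * mz p (u s.1 x - ctr p L (u s.1)) -
        s.2 * mz p (u s.1 z - ctr p L (u s.1))) ^ 2 +
      1 / 2 * (Qf p u x z S (stp p s.2 L (u s.1)) + Qf p u x z S (stp p (-s.2) L (u s.1)))

/-- all the observations are weak -/
def Adm (p : ℝ) (u : Ω → X → ℝ) (S : List (Ω × ℝ)) : Prop :=
  ∀ s ∈ S, ∀ x y, |s.2| * |u s.1 x - u s.1 y| ^ (p / 2) ≤ 1 / 4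

variable [Nonempty X]

lemma ctr_spec (hp : 0 < p) {L : X → ℝ} (u : X → ℝ) (hL : ∀ x, 0 < L x) :
    (∀ x, ∃ y, |u x - ctr p L u| ≤ |u x - u y|) ∧
      ∑ x, L x * mz p (u x - ctr p L u) = 0 := by
  have h := exists_ctr hp L u (fun x => (hL x).le)
  unfold ctr
  rw [dif_pos h]
  exact h.choose_spec

lemma small (hp : 0 < p) {L u : X → ℝ} (hL : ∀ x, 0 < L x) {κ : ℝ}
    (hκ : ∀ x y, |κ| * |u x - u y| ^ (p / 2) ≤ 1 / 4) (x : X) :
    |κ * mz p (u x - ctr p L u)| ≤ 1 / 4 := by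
  obtain ⟨y, hy⟩ := (ctr_spec hp u hL).1 x
  rw [abs_mul, abs_mz hp]
  refine le_trans ?_ (hκ x y)
  apply mul_le_mul_of_nonneg_left _ (abs_nonneg κ)
  exact Real.rpow_le_rpow (abs_nonneg _) hy (by linarith)

lemma stp_pos (hp : 0 < p) {L u : X → ℝ} (hL : ∀ x, 0 < L x) {κ : ℝ}
    (hκ : ∀ x y, |κ| * |u x - u y| ^ (p / 2) ≤ 1 / 4) (x : X) : 0 < stp p κ L u x := by
  have h := abs_le.1 (small hp hL hκ x)
  unfold stp
  apply mul_pos (hL x)
  linarith [h.1]

lemma stp_sum (hp : 0 < p) {L : X → ℝ} (u : X → ℝ) (hL : ∀ x, 0 < L x) (κ : ℝ) :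
    ∑ x, stp p κ L u x = ∑ x, L x := by
  have h := (ctr_spec hp u hL).2
  unfold stp
  have e : ∀ x, L x * (1 + 2 * (κ * mz p (u x - ctr p L u))) =
      L x + 2 * κ * (L x * mz p (u x - ctr p L u)) := fun x => by ring
  rw [Finset.sum_congr rfl fun x _ => e x, Finset.sum_add_distrib, ← Finset.mul_sum, h]
  ring

omit [Nonempty X] in
lemma stp_avg (κ : ℝ) (L u : X → ℝ) (x : X) :
    1 / 2 * (stp p κ L u x + stp p (-κ) L u x) = L x := by
  unfold stp; ring

omit [Fintype X] [DecidableEq Ω] [Nonempty X] in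
lemma Adm.tail {u : Ω → X → ℝ} {s : Ω × ℝ} {S : List (Ω × ℝ)} (h : Adm p u (s :: S)) :
    Adm p u S := fun s' hs' => h s' (List.mem_cons_of_mem _ hs')

omit [Fintype X] [DecidableEq Ω] [Nonempty X] in
lemma Adm.head {u : Ω → X → ℝ} {s : Ω × ℝ} {S : List (Ω × ℝ)} (h : Adm p u (s :: S)) :
    ∀ x y, |s.2| * |u s.1 x - u s.1 y| ^ (p / 2) ≤ 1 / 4 := h s List.mem_cons_self

omit [Fintype X] [DecidableEq Ω] [Nonempty X] in
lemma Adm.head' {u : Ω → X → ℝ} {s : Ω × ℝ} {S : List (Ω × ℝ)} (h : Adm p u (s :: S)) :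
    ∀ x y, |-s.2| * |u s.1 x - u s.1 y| ^ (p / 2) ≤ 1 / 4 := by
  intro x y; rw [abs_neg]; exact h.head x y

lemma En_nonneg (hp : 0 < p) (u : Ω → X → ℝ) (ω : Ω) (x : X) (S : List (Ω × ℝ)) :
    ∀ L : X → ℝ, (∀ x, 0 < L x) → Adm p u S → 0 ≤ En p u ω x S L := by
  induction S with
  | nil => intro L _ _; simp [En]
  | cons s S ih =>
    intro L hL hS
    have h1 := ih _ (stp_pos hp hL hS.head) hS.tail
    have h2 := ih _ (stp_pos hp hL hS.head') hS.tail
    have h3 := (hL x).le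
    unfold En
    split_ifs <;> positivity

/-- the information bound -/
theorem ent_bound [Fintype Ω] (hp : 0 < p) (u : Ω → X → ℝ) (x : X) (S : List (Ω × ℝ)) :
    ∀ L : X → ℝ, (∀ x, 0 < L x) → ∑ x, L x = Fintype.card X → Adm p u S →
      ∑ ω, En p u ω x S L ≤
        3 / 2 * (L x * (Real.log (Fintype.card X) - Real.log (L x))) := by
  induction S with
  | nil =>
    intro L hL hsum _
    simp only [En, Finset.sum_const_zero]
    have h1 : L x ≤ Fintype.card X := by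
      rw [← hsum]
      exact Finset.single_le_sum (fun y _ => (hL y).le) (mem_univ x)
    have h2 := Real.log_le_log (hL x) h1
    have h3 := hL x
    have h4 : 0 ≤ Real.log (Fintype.card X) - Real.log (L x) := by linarith
    positivity
  | cons s S ih =>
    intro L hL hsum hS
    have h1 := ih _ (stp_pos hp hL hS.head) (by rw [stp_sum hp _ hL]; exact hsum) hS.tail
    have h2 := ih _ (stp_pos hp hL hS.head') (by rw [stp_sum hp _ hL]; exact hsum) hS.tail
    simp only [En]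
    rw [Finset.sum_add_distrib, Finset.sum_ite_eq, if_pos (mem_univ _), ← Finset.mul_sum,
      Finset.sum_add_distrib]
    set c := ctr p L (u s.1) with hc
    set t : ℝ := 2 * (s.2 * mz p (u s.1 x - c)) with ht
    have ht2 : |t| ≤ 1 / 2 := by
      have := small hp hL hS.head x
      rw [ht, abs_mul, abs_of_pos (by norm_num : (0:ℝ) < 2)]
      linarith
    have e1 : stp p s.2 L (u s.1) x = L x * (1 + t) := rfl
    have e2 : stp p (-s.2) L (u s.1) x = L x * (1 - t) := by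
      unfold stp; rw [ht, hc]; ring
    obtain ⟨t1, t2⟩ := abs_le.1 ht2
    have hL0 := hL x
    rw [e1, Real.log_mul hL0.ne' (by linarith)] at h1
    rw [e2, Real.log_mul hL0.ne' (by linarith)] at h2
    have h3 := ent_gain ht2
    have h4 : s.2 ^ 2 * (L x * |u s.1 x - c| ^ p) = L x * (t ^ 2 / 4) := by
      rw [← mz_sq hp, ht]; ring
    rw [h4]
    have h5 := mul_le_mul_of_nonneg_left h3 hL0.le
    nlinarith

omit [DecidableEq Ω] in
lemma Mn_nonneg (hp : 0 < p) (u : Ω → X → ℝ) (x z : X) (S : List (Ω × ℝ)) :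
    ∀ L : X → ℝ, (∀ x, 0 < L x) → Adm p u S → 0 ≤ Mn p u x z S L := by
  induction S with
  | nil => intro L hL _; exact le_min (hL x).le (hL z).le
  | cons s S ih =>
    intro L hL hS
    have h1 := ih _ (stp_pos hp hL hS.head) hS.tail
    have h2 := ih _ (stp_pos hp hL hS.head') hS.tail
    unfold Mn
    positivity

omit [DecidableEq Ω] in
lemma Mn_le (hp : 0 < p) (u : Ω → X → ℝ) (x z : X) (S : List (Ω × ℝ)) :
    ∀ L : X → ℝ, (∀ x, 0 < L x) → Adm p u S → Mn p u x z S L ≤ min (L x) (L z) := by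
  induction S with
  | nil => intro L _ _; exact le_rfl
  | cons s S ih =>
    intro L hL hS
    have h1 := ih _ (stp_pos hp hL hS.head) hS.tail
    have h2 := ih _ (stp_pos hp hL hS.head') hS.tail
    unfold Mn
    have a1 := stp_avg (p := p) s.2 L (u s.1) x
    have a2 := stp_avg (p := p) s.2 L (u s.1) z
    obtain ⟨b1, b2⟩ := le_min_iff.1 h1
    obtain ⟨b3, b4⟩ := le_min_iff.1 h2
    apply le_min <;> linarith

omit [Fintype X] [DecidableEq Ω] [Nonempty X] in
lemma pow_split (hp : 1 ≤ p) (a b m : ℝ) :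
    2 ^ (1 - p) * |a - b| ^ p ≤ |a - m| ^ p + |b - m| ^ p := by
  have h1 : |a - b| ≤ |a - m| + |b - m| := by
    calc |a - b| = |(a - m) - (b - m)| := by ring_nf
      _ ≤ |a - m| + |b - m| := abs_sub _ _
  have h2 := Real.rpow_le_rpow (abs_nonneg _) h1 (by linarith : 0 ≤ p)
  have h3 : (|a - m| + |b - m|) ^ p ≤ 2 ^ (p - 1) * (|a - m| ^ p + |b - m| ^ p) := by
    have := NNReal.rpow_add_le_mul_rpow_add_rpow ⟨|a - m|, abs_nonneg _⟩ ⟨|b - m|, abs_nonneg _⟩ hp
    exact_mod_cast this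
  have h4 : (2:ℝ) ^ (1 - p) * 2 ^ (p - 1) = 1 := by
    rw [← Real.rpow_add (by norm_num)]; simp
  have h5 : 0 < (2:ℝ) ^ (1 - p) := by positivity
  calc 2 ^ (1 - p) * |a - b| ^ p ≤ 2 ^ (1 - p) * (2 ^ (p - 1) * (|a - m| ^ p + |b - m| ^ p)) := by
        apply mul_le_mul_of_nonneg_left (h2.trans h3) h5.le
    _ = (2 ^ (1 - p) * 2 ^ (p - 1)) * (|a - m| ^ p + |b - m| ^ p) := by ring
    _ = _ := by rw [h4, one_mul]

/-- the energies of a pair -/
theorem En_pair (hp : 1 ≤ p) (u : Ω → X → ℝ) (ω : Ω) (x z : X) (S : List (Ω × ℝ)) :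
    ∀ L : X → ℝ, (∀ x, 0 < L x) → Adm p u S →
      2 ^ (1 - p) * |u ω x - u ω z| ^ p *
        (S.map (fun s => if s.1 = ω then s.2 ^ 2 else 0)).sum * Mn p u x z S L ≤
      En p u ω x S L + En p u ω z S L := by
  have hp0 : 0 < p := by linarith
  induction S with
  | nil => intro L _ _; simp [En]
  | cons s S ih =>
    intro L hL hS
    have h1 := ih _ (stp_pos hp0 hL hS.head) hS.tail
    have h2 := ih _ (stp_pos hp0 hL hS.head') hS.tail
    have h3 := Mn_le hp0 u x z (s :: S) L hL hS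
    have h4 := Mn_nonneg hp0 u x z (s :: S) L hL hS
    obtain ⟨h5, h6⟩ := le_min_iff.1 h3
    set W := (S.map (fun s => if s.1 = ω then s.2 ^ 2 else 0)).sum with hW
    set c := ctr p L (u s.1) with hc
    set P := 2 ^ (1 - p) * |u ω x - u ω z| ^ p with hP
    have hP0 : 0 ≤ P := by positivity
    simp only [List.map_cons, List.sum_cons]
    rw [← hW]
    have hM : Mn p u x z (s :: S) L = 1 / 2 * (Mn p u x z S (stp p s.2 L (u s.1)) +
      Mn p u x z S (stp p (-s.2) L (u s.1))) := rfl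
    have h7 : P * W * Mn p u x z (s :: S) L ≤
        1 / 2 * (En p u ω x S (stp p s.2 L (u s.1)) + En p u ω x S (stp p (-s.2) L (u s.1))) +
        1 / 2 * (En p u ω z S (stp p s.2 L (u s.1)) + En p u ω z S (stp p (-s.2) L (u s.1))) := by
      rw [hM]
      linarith
    have h8 : P * (if s.1 = ω then s.2 ^ 2 else 0) * Mn p u x z (s :: S) L ≤
        (if s.1 = ω then s.2 ^ 2 * (L x * |u s.1 x - c| ^ p) else 0) +
        (if s.1 = ω then s.2 ^ 2 * (L z * |u s.1 z - c| ^ p) else 0) := by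
      split_ifs with h
      · have h9 := pow_split hp (u ω x) (u ω z) c
        rw [← hP] at h9
        rw [h]
        have a1 : 0 ≤ |u ω x - c| ^ p := by positivity
        have a2 : 0 ≤ |u ω z - c| ^ p := by positivity
        have a3 : P * Mn p u x z (s :: S) L ≤ (|u ω x - c| ^ p + |u ω z - c| ^ p) *
            Mn p u x z (s :: S) L := mul_le_mul_of_nonneg_right h9 h4
        have a4 := mul_le_mul_of_nonneg_left h5 a1
        have a5 := mul_le_mul_of_nonneg_left h6 a2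
        have a6 : P * Mn p u x z (s :: S) L ≤ L x * |u ω x - c| ^ p + L z * |u ω z - c| ^ p := by
          linarith
        have a7 := mul_le_mul_of_nonneg_left a6 (sq_nonneg s.2)
        linarith
      · simp
    have e1 : En p u ω x (s :: S) L =
        (if s.1 = ω then s.2 ^ 2 * (L x * |u s.1 x - c| ^ p) else 0) +
        1 / 2 * (En p u ω x S (stp p s.2 L (u s.1)) + En p u ω x S (stp p (-s.2) L (u s.1))) := rfl
    have e2 : En p u ω z (s :: S) L =
        (if s.1 = ω then s.2 ^ 2 * (L z * |u s.1 z - c| ^ p) else 0) +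
        1 / 2 * (En p u ω z S (stp p s.2 L (u s.1)) + En p u ω z S (stp p (-s.2) L (u s.1))) := rfl
    rw [e1, e2]
    linarith

omit [DecidableEq Ω] in
theorem Af_le (hp : 0 < p) (u : Ω → X → ℝ) (x z : X) (S : List (Ω × ℝ)) :
    ∀ L : X → ℝ, (∀ x, 0 < L x) → Adm p u S →
      Af p u x z S L ≤ 2 * Mn p u x z S L + (L x + L z) / 8 := by
  induction S with
  | nil => intro L hL _; exact sqrt_le_min (hL x).le (hL z).le
  | cons s S ih =>
    intro L hL hS
    have h1 := ih _ (stp_pos hp hL hS.head) hS.tail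
    have h2 := ih _ (stp_pos hp hL hS.head') hS.tail
    unfold Af Mn
    have a1 := stp_avg (p := p) s.2 L (u s.1) x
    have a2 := stp_avg (p := p) s.2 L (u s.1) z
    linarith

omit [DecidableEq Ω] in
theorem Af_ge (hp : 0 < p) (u : Ω → X → ℝ) (x z : X) (S : List (Ω × ℝ)) :
    ∀ L : X → ℝ, (∀ x, 0 < L x) → Adm p u S →
      √(L x * L z) - Qf p u x z S L ≤ Af p u x z S L := by
  induction S with
  | nil => intro L hL _; simp [Af, Qf]
  | cons s S ih =>
    intro L hL hS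
    have h1 := ih _ (stp_pos hp hL hS.head) hS.tail
    have h2 := ih _ (stp_pos hp hL hS.head') hS.tail
    have h3 := sqrt_gain (hL x).le (hL z).le (small hp hL hS.head x) (small hp hL hS.head z)
    have e1 : stp p (-s.2) L (u s.1) x =
        L x * (1 - 2 * (s.2 * mz p (u s.1 x - ctr p L (u s.1)))) := by
      unfold stp; ring
    have e2 : stp p (-s.2) L (u s.1) z =
        L z * (1 - 2 * (s.2 * mz p (u s.1 z - ctr p L (u s.1)))) := by
      unfold stp; ring
    rw [e1, e2] at h2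
    have e3 : stp p s.2 L (u s.1) x =
        L x * (1 + 2 * (s.2 * mz p (u s.1 x - ctr p L (u s.1)))) := rfl
    have e4 : stp p s.2 L (u s.1) z =
        L z * (1 + 2 * (s.2 * mz p (u s.1 z - ctr p L (u s.1)))) := rfl
    rw [e3, e4] at h1
    unfold Af Qf
    linarith

theorem Qf_le [Fintype Ω] (hp : 0 < p) {C θ q : ℝ}
    (hmz : ∀ a b : ℝ, (mz p a - mz p b) ^ 2 ≤ C * (θ ^ (-q) * |a - b| ^ p + θ * |a| ^ p))
    (u : Ω → X → ℝ) (x z : X) (S : List (Ω × ℝ)) :
    ∀ L : X → ℝ, (∀ x, 0 < L x) → Adm p u S →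
      Qf p u x z S L ≤ C * (θ ^ (-q) * ((L x + L z) *
        (S.map (fun s => s.2 ^ 2 * |u s.1 x - u s.1 z| ^ p)).sum) +
        θ * (∑ ω, En p u ω x S L + ∑ ω, En p u ω z S L)) := by
  induction S with
  | nil => intro L hL _; simp [Qf, En]
  | cons s S ih =>
    intro L hL hS
    have h1 := ih _ (stp_pos hp hL hS.head) hS.tail
    have h2 := ih _ (stp_pos hp hL hS.head') hS.tail
    simp only [En, Qf, List.map_cons, List.sum_cons]
    rw [Finset.sum_add_distrib, Finset.sum_ite_eq, if_pos (mem_univ _), ← Finset.mul_sum,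
      Finset.sum_add_distrib, Finset.sum_add_distrib, Finset.sum_ite_eq, if_pos (mem_univ _),
      ← Finset.mul_sum, Finset.sum_add_distrib]
    have a1 := stp_avg (p := p) s.2 L (u s.1) x
    have a2 := stp_avg (p := p) s.2 L (u s.1) z
    set W := (S.map (fun s => s.2 ^ 2 * |u s.1 x - u s.1 z| ^ p)).sum with hW
    set c := ctr p L (u s.1) with hc
    set T := θ ^ (-q) with hT
    set x1 := stp p s.2 L (u s.1) x
    set x2 := stp p (-s.2) L (u s.1) x
    set z1 := stp p s.2 L (u s.1) z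
    set z2 := stp p (-s.2) L (u s.1) z
    have b1 := hmz (u s.1 x - c) (u s.1 z - c)
    have b2 := hmz (u s.1 z - c) (u s.1 x - c)
    have e1 : (u s.1 x - c) - (u s.1 z - c) = u s.1 x - u s.1 z := by ring
    have e2 : |(u s.1 z - c) - (u s.1 x - c)| = |u s.1 x - u s.1 z| := by
      rw [← abs_neg]; ring_nf
    rw [e1] at b1
    rw [e2] at b2
    have b3 : (mz p (u s.1 z - c) - mz p (u s.1 x - c)) ^ 2 =
      (mz p (u s.1 x - c) - mz p (u s.1 z - c)) ^ 2 := by ring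
    rw [b3] at b2
    have c1 := mul_le_mul_of_nonneg_left b1 (mul_nonneg (sq_nonneg s.2) (hL x).le)
    have c2 := mul_le_mul_of_nonneg_left b2 (mul_nonneg (sq_nonneg s.2) (hL z).le)
    have e3 : (L x + L z) * (s.2 * mz p (u s.1 x - c) - s.2 * mz p (u s.1 z - c)) ^ 2 =
      s.2 ^ 2 * L x * (mz p (u s.1 x - c) - mz p (u s.1 z - c)) ^ 2 +
      s.2 ^ 2 * L z * (mz p (u s.1 x - c) - mz p (u s.1 z - c)) ^ 2 := by ring
    rw [e3]
    have e4 : L x + L z = 1 / 2 * (x1 + z1) + 1 / 2 * (x2 + z2) := by linarith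
    have e5 : C * (T * ((L x + L z) * W)) =
      1 / 2 * (C * (T * ((x1 + z1) * W))) + 1 / 2 * (C * (T * ((x2 + z2) * W))) := by
      rw [e4]; ring
    nlinarith

theorem En_append (hp : 0 < p) (u : Ω → X → ℝ) (ω : Ω) (x : X)
    (S S' : List (Ω × ℝ)) :
    ∀ L : X → ℝ, (∀ x, 0 < L x) → Adm p u (S ++ S') →
      En p u ω x S L ≤ En p u ω x (S ++ S') L := by
  induction S with
  | nil => intro L hL hS; simpa [En] using En_nonneg hp u ω x S' L hL hS
  | cons s S ih =>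
    intro L hL hS
    rw [List.cons_append] at hS ⊢
    have h1 := ih _ (stp_pos hp hL hS.head) hS.tail
    have h2 := ih _ (stp_pos hp hL hS.head') hS.tail
    simp only [En]
    linarith

end process

end Vale.Agent.P249C
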