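import Mathlib
import Vale.Agent.Lib.P249C.Proc

/-!
P249C: the orientation lemma.
-/

open Finset

namespace Vale.Agent.P249C

section sched

variable {Ω : Type} [Fintype Ω]

/-- one scale: `N` rounds over all the coordinates -/
noncomputable def blk (Ω : Type) [Fintype Ω] (N : ℕ) (κ : ℝ) : List (Ω × ℝ) :=
  (List.replicate N ((univ : Finset Ω).toList.map (fun ω => (ω, κ)))).flatten

/-- the schedule: blocks of strengths `κ 0, κ 1, …` -/
noncomputable def sched (Ω : Type) [Fintype Ω] (N : ℕ) (κ : ℕ → ℝ) : ℕ → List (Ω × ℝ)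
  | 0 => []
  | k + 1 => sched Ω N κ k ++ blk Ω N (κ k)

lemma blk_sum (N : ℕ) (κ : ℝ) (F : Ω × ℝ → ℝ) :
    ((blk Ω N κ).map F).sum = N * ∑ ω, F (ω, κ) := by
  unfold blk
  induction N with
  | zero => simp
  | succ N ih =>
    rw [List.replicate_succ, List.flatten_cons, List.map_append, List.sum_append, ih]
    rw [List.map_map]
    have : (List.map (F ∘ fun ω => (ω, κ)) (univ : Finset Ω).toList).sum = ∑ ω, F (ω, κ) := by
      rw [Finset.sum_map_toList]
      rfl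
    rw [this]
    push_cast
    ring

lemma sched_sum (N : ℕ) (κ : ℕ → ℝ) (k : ℕ) (F : Ω × ℝ → ℝ) :
    ((sched Ω N κ k).map F).sum = ∑ i ∈ range k, N * ∑ ω, F (ω, κ i) := by
  induction k with
  | zero => simp [sched]
  | succ k ih =>
    rw [sched, List.map_append, List.sum_append, ih, blk_sum, Finset.sum_range_succ]

lemma mem_blk {N : ℕ} {κ : ℝ} {s : Ω × ℝ} (h : s ∈ blk Ω N κ) : s.2 = κ := by
  unfold blk at h
  rw [List.mem_flatten] at h
  obtain ⟨l, hl, hs⟩ := h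
  rw [List.mem_replicate] at hl
  rw [hl.2, List.mem_map] at hs
  obtain ⟨ω, _, rfl⟩ := hs
  rfl

lemma mem_sched {N : ℕ} {κ : ℕ → ℝ} {k : ℕ} {s : Ω × ℝ} (h : s ∈ sched Ω N κ k) :
    ∃ i < k, s.2 = κ i := by
  induction k with
  | zero => simp [sched] at h
  | succ k ih =>
    rw [sched, List.mem_append] at h
    rcases h with h | h
    · obtain ⟨i, hi, e⟩ := ih h
      exact ⟨i, by omega, e⟩
    · exact ⟨k, by omega, mem_blk h⟩

lemma sched_split (N : ℕ) (κ : ℕ → ℝ) {i k : ℕ} (h : i ≤ k) :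
    ∃ S', sched Ω N κ k = sched Ω N κ i ++ S' := by
  induction k with
  | zero => exact ⟨[], by rw [Nat.le_zero.1 h]; simp⟩
  | succ k ih =>
    rcases Nat.lt_or_ge k i with h1 | h1
    · have : i = k + 1 := by omega
      exact ⟨[], by rw [this]; simp⟩
    · obtain ⟨S', hS'⟩ := ih h1
      exact ⟨S' ++ blk Ω N (κ k), by rw [sched, hS', List.append_assoc]⟩

end sched

section orient

variable {X Ω : Type} [Fintype X] [Nonempty X] [Fintype Ω] [DecidableEq Ω] {p : ℝ}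

theorem Mn_ge (hp : 0 < p) {C θ q : ℝ} (hC : 0 ≤ C) (hθ : 0 < θ)
    (hmz : ∀ a b : ℝ, (mz p a - mz p b) ^ 2 ≤ C * (θ ^ (-q) * |a - b| ^ p + θ * |a| ^ p))
    (u : Ω → X → ℝ) (x z : X) (S : List (Ω × ℝ)) (hS : Adm p u S)
    (h : C * (θ ^ (-q) * (2 * (S.map (fun s => s.2 ^ 2 * |u s.1 x - u s.1 z| ^ p)).sum) +
      θ * (3 * Real.log (Fintype.card X))) ≤ 1 / 2) :
    1 / 8 ≤ Mn p u x z S (fun _ => 1) := by
  have hL : ∀ x : X, 0 < (fun _ => (1:ℝ)) x := fun _ => one_pos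
  have hsum : ∑ x : X, (fun _ => (1:ℝ)) x = Fintype.card X := by simp
  have h1 := Af_ge hp u x z S _ hL hS
  have h2 := Af_le hp u x z S _ hL hS
  have h3 := Qf_le hp hmz u x z S _ hL hS
  have h4 := ent_bound hp u x S _ hL hsum hS
  have h5 := ent_bound hp u z S _ hL hsum hS
  simp only [mul_one, Real.sqrt_one, Real.log_one, sub_zero, one_mul] at h1 h2 h3 h4 h5
  have h6 : θ * (∑ ω, En p u ω x S (fun _ => 1) + ∑ ω, En p u ω z S (fun _ => 1)) ≤
      θ * (3 * Real.log (Fintype.card X)) := by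
    apply mul_le_mul_of_nonneg_left _ hθ.le
    linarith
  have h7 := mul_le_mul_of_nonneg_left (add_le_add_right h6
    (θ ^ (-q) * (2 * (S.map (fun s => s.2 ^ 2 * |u s.1 x - u s.1 z| ^ p)).sum))) hC
  have e : (1:ℝ) + 1 = 2 := by norm_num
  rw [e] at h3
  linarith

/-- the information about a pair gathered until its own scale -/
theorem pair_bound (hp : 1 ≤ p) {C0 θ q T : ℝ} (hC0 : 1 ≤ C0) (hθ0 : 0 < θ)
    (hmz : ∀ a b : ℝ, (mz p a - mz p b) ^ 2 ≤ C0 * (θ ^ (-q) * |a - b| ^ p + θ * |a| ^ p))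
    (hT0 : 0 < T) (hT : θ ^ (-q) * (2 * (2 * T)) = 1 / (4 * C0))
    (hθ : θ * (3 * Real.log (Fintype.card X)) = 1 / (4 * C0))
    (u : Ω → X → ℝ) (x y : X) {N : ℕ} (hN0 : 0 < (N:ℝ)) {t κ : ℕ → ℝ} (ht0 : ∀ k, 0 < t k)
    (ht : ∀ k, t k = 2 * t (k + 1)) (hκ2 : ∀ k, κ k ^ 2 = 1 / (N * t k ^ p)) (k : ℕ)
    (hadm : Adm p u (sched Ω N κ (k + 1)))
    (hdk : ∑ ω, |u ω x - u ω y| ^ p ≤ T * t k ^ p) (ω : Ω) :
    |u ω x - u ω y| ^ p ≤ 16 * 2 ^ (p - 1) * t k ^ p *
      max (En p u ω x (sched Ω N κ (k + 1)) (fun _ => 1))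
        (En p u ω y (sched Ω N κ (k + 1)) (fun _ => 1)) := by
  have hp0 : 0 < p := by linarith
  have hL1 : ∀ x : X, 0 < (fun _ => (1:ℝ)) x := fun _ => one_pos
  have hgeo : ∀ k, ∑ i ∈ range (k + 1), (t i ^ p)⁻¹ ≤ 2 * (t k ^ p)⁻¹ := by
    intro k
    induction k with
    | zero =>
      have : 0 < t 0 ^ p := Real.rpow_pos_of_pos (ht0 0) p
      have : 0 < (t 0 ^ p)⁻¹ := by positivity
      simp only [zero_add, range_one, sum_singleton]
      linarith
    | succ k ih =>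
      rw [Finset.sum_range_succ]
      have h1 : (t k ^ p)⁻¹ ≤ 1 / 2 * (t (k + 1) ^ p)⁻¹ := by
        rw [ht k, Real.mul_rpow (by norm_num) (ht0 _).le, mul_inv]
        apply mul_le_mul_of_nonneg_right
        · have h2 : (2:ℝ) ≤ 2 ^ p := by
            have := Real.rpow_le_rpow_of_exponent_le (by norm_num : (1:ℝ) ≤ 2) hp
            rwa [Real.rpow_one] at this
          rw [← one_div]
          exact div_le_div_of_nonneg_left (by norm_num) (by norm_num) h2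
        · have := ht0 (k + 1); positivity
      linarith
  set Sk := sched Ω N κ (k + 1) with hSk
  have htk0 := ht0 k
  have hW : (Sk.map (fun s => s.2 ^ 2 * |u s.1 x - u s.1 y| ^ p)).sum ≤ 2 * T := by
    rw [hSk, sched_sum]
    have e1 : ∀ i ∈ range (k + 1), (N:ℝ) * ∑ ω, (κ i) ^ 2 * |u ω x - u ω y| ^ p =
        (∑ ω, |u ω x - u ω y| ^ p) * (t i ^ p)⁻¹ := by
      intro i _
      rw [← Finset.mul_sum, hκ2]
      have := Real.rpow_pos_of_pos (ht0 i) p
      field_simp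
    rw [Finset.sum_congr rfl e1, ← Finset.mul_sum]
    have h2 := hgeo k
    have h3 : 0 < t k ^ p := Real.rpow_pos_of_pos htk0 p
    calc (∑ ω, |u ω x - u ω y| ^ p) * ∑ i ∈ range (k + 1), (t i ^ p)⁻¹ ≤
          (T * t k ^ p) * (2 * (t k ^ p)⁻¹) := by
          apply mul_le_mul hdk h2
          · exact Finset.sum_nonneg fun i _ => by have := ht0 i; positivity
          · positivity
      _ = 2 * T := by field_simp
  have hMn : 1 / 8 ≤ Mn p u x y Sk (fun _ => 1) := by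
    apply Mn_ge hp0 (by linarith : (0:ℝ) ≤ C0) hθ0 hmz u x y Sk hadm
    have h1 : θ ^ (-q) * (2 * (Sk.map (fun s => s.2 ^ 2 * |u s.1 x - u s.1 y| ^ p)).sum) ≤
        θ ^ (-q) * (2 * (2 * T)) := by
      apply mul_le_mul_of_nonneg_left _ (by positivity)
      linarith
    rw [hθ]
    have h4 : C0 * (1 / (4 * C0) + 1 / (4 * C0)) = 1 / 2 := by
      field_simp
      norm_num
    rw [← h4]
    apply mul_le_mul_of_nonneg_left _ (by linarith)
    linarith
  have hpair := En_pair hp u ω x y Sk (fun _ => 1) hL1 hadm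
  have hsumω : (t k ^ p)⁻¹ ≤
      (Sk.map (fun s => if s.1 = ω then s.2 ^ 2 else 0)).sum := by
    rw [hSk, sched_sum]
    have e1 : ∀ i ∈ range (k + 1), (N:ℝ) * ∑ ω', (if ω' = ω then (κ i) ^ 2 else 0) =
        (t i ^ p)⁻¹ := by
      intro i _
      rw [Finset.sum_ite_eq', if_pos (mem_univ _), hκ2]
      have := Real.rpow_pos_of_pos (ht0 i) p
      field_simp
    rw [Finset.sum_congr rfl e1]
    exact Finset.single_le_sum (f := fun i => (t i ^ p)⁻¹)
      (fun i _ => by have := ht0 i; positivity) (Finset.self_mem_range_succ k)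
  set Ex := En p u ω x Sk (fun _ => 1) with hEx
  set Ey := En p u ω y Sk (fun _ => 1) with hEy
  have hmax1 := le_max_left Ex Ey
  have hmax2 := le_max_right Ex Ey
  set P : ℝ := |u ω x - u ω y| ^ p with hP
  have hP0 : 0 ≤ P := by positivity
  have h21 : 0 < (2:ℝ) ^ (1 - p) := by positivity
  have h5 : 2 ^ (1 - p) * P * (t k ^ p)⁻¹ * (1 / 8) ≤ 2 * max Ex Ey := by
    calc 2 ^ (1 - p) * P * (t k ^ p)⁻¹ * (1 / 8) ≤
        2 ^ (1 - p) * P * (Sk.map (fun s => if s.1 = ω then s.2 ^ 2 else 0)).sum *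
          Mn p u x y Sk (fun _ => 1) := by
          apply mul_le_mul _ hMn (by norm_num)
          · have : 0 ≤ (Sk.map (fun s => if s.1 = ω then s.2 ^ 2 else 0)).sum :=
              le_trans (by positivity) hsumω
            positivity
          · exact mul_le_mul_of_nonneg_left hsumω (by positivity)
      _ ≤ _ := hpair
      _ ≤ _ := by linarith
  have h7 : 0 < t k ^ p := Real.rpow_pos_of_pos htk0 p
  have e3 : (2:ℝ) ^ (p - 1) * 2 ^ (1 - p) = 1 := by
    rw [← Real.rpow_add (by norm_num)]; simp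
  have h8 : 0 < (2:ℝ) ^ (p - 1) := by positivity
  have e4 : P = 8 * 2 ^ (p - 1) * t k ^ p * (2 ^ (1 - p) * P * (t k ^ p)⁻¹ * (1 / 8)) := by
    calc P = (2 ^ (p - 1) * 2 ^ (1 - p)) * (t k ^ p * (t k ^ p)⁻¹) * P := by
          rw [e3, mul_inv_cancel₀ h7.ne']; ring
      _ = _ := by ring
  rw [e4]
  calc 8 * 2 ^ (p - 1) * t k ^ p * (2 ^ (1 - p) * P * (t k ^ p)⁻¹ * (1 / 8)) ≤
      8 * 2 ^ (p - 1) * t k ^ p * (2 * max Ex Ey) :=
        mul_le_mul_of_nonneg_left h5 (by positivity)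
    _ = _ := by ring

omit [Fintype X] [Nonempty X] [DecidableEq Ω] in
/-- the schedule is admissible -/
lemma adm_sched (hp0 : 0 < p) {u : Ω → X → ℝ} {D0 : ℝ} (hD00 : 0 < D0)
    (hud : ∀ ω x y, |u ω x - u ω y| ≤ D0) {m N : ℕ} {t κ : ℕ → ℝ} (ht0 : ∀ k, 0 < t k)
    (htm : ∀ k, k ≤ m → t m ≤ t k) (hN0 : 0 < (N:ℝ)) (hN : 16 * D0 ^ p / t m ^ p ≤ N)
    (hκ : ∀ k, κ k = √(1 / (N * t k ^ p))) (k : ℕ) (hk : k ≤ m + 1) :
    Adm p u (sched Ω N κ k) := by
  intro s hs x y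
  obtain ⟨i, hi, e⟩ := mem_sched hs
  have hκ2 : κ i ^ 2 = 1 / (N * t i ^ p) := by
    have := ht0 i
    rw [hκ, Real.sq_sqrt (by positivity)]
  have hκ0 : 0 ≤ κ i := by rw [hκ]; exact Real.sqrt_nonneg _
  rw [e, abs_of_nonneg hκ0]
  have h2 : |u s.1 x - u s.1 y| ^ (p / 2) ≤ D0 ^ (p / 2) :=
    Real.rpow_le_rpow (abs_nonneg _) (hud _ x y) (by linarith)
  have h3 : κ i * D0 ^ (p / 2) ≤ 1 / 4 := by
    apply le_of_sq_le_sq _ (by norm_num)
    rw [mul_pow, hκ2, ← Real.rpow_natCast (D0 ^ (p / 2)), ← Real.rpow_mul hD00.le]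
    have e2 : p / 2 * ((2:ℕ):ℝ) = p := by push_cast; ring
    rw [e2]
    have h4 : t m ^ p ≤ t i ^ p := Real.rpow_le_rpow (ht0 m).le (htm i (by omega)) hp0.le
    have h5 : 0 < t m ^ p := Real.rpow_pos_of_pos (ht0 m) p
    have h6 : 16 * D0 ^ p / t m ^ p ≤ N := hN
    rw [div_le_iff₀ h5] at h6
    have h7 : 16 * D0 ^ p ≤ N * t i ^ p := h6.trans (mul_le_mul_of_nonneg_left h4 hN0.le)
    have h8 : 0 < (N:ℝ) * t i ^ p := mul_pos hN0 (h5.trans_le h4)
    rw [one_div_mul_eq_div, div_le_iff₀ h8]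
    linarith
  exact (mul_le_mul_of_nonneg_left h2 hκ0).trans h3

/-- the energies -/
theorem orient_energy (hp : 1 ≤ p) {C0 q : ℝ} (hC0 : 1 ≤ C0)
    (hmz0 : ∀ a b θ : ℝ, 0 < θ → θ ≤ 1 →
      (mz p a - mz p b) ^ 2 ≤ C0 * (θ ^ (-q) * |a - b| ^ p + θ * |a| ^ p))
    (u : Ω → X → ℝ) (hn : 2 ≤ Fintype.card X) :
    ∃ E : Ω → X → ℝ, (∀ ω x, 0 ≤ E ω x) ∧
      (∀ x, ∑ ω, E ω x ≤ 3 / 2 * Real.log (Fintype.card X)) ∧
      ∀ ω x y, |u ω x - u ω y| ^ p ≤
        (16 * 2 ^ (p - 1) * 2 ^ p * (16 * C0) * (12 * C0) ^ q *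
          Real.log (Fintype.card X) ^ q) * max (E ω x) (E ω y) *
          ∑ ω', |u ω' x - u ω' y| ^ p := by
  have hp0 : 0 < p := by linarith
  set l : ℝ := Real.log (Fintype.card X) with hl
  have hl2 : Real.log 2 ≤ l := Real.log_le_log (by norm_num) (by exact_mod_cast hn)
  have hlog2 : 1 / 2 < Real.log 2 := by
    have := Real.log_two_gt_d9; linarith
  have hl0 : 0 < l := by linarith
  set θ : ℝ := 1 / (12 * C0 * l) with hθ
  have hθ0 : 0 < θ := by rw [hθ]; positivity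
  have hθ1 : θ ≤ 1 := by
    rw [hθ, div_le_one (by positivity)]
    nlinarith
  have hmz : ∀ a b : ℝ, (mz p a - mz p b) ^ 2 ≤
      C0 * (θ ^ (-q) * |a - b| ^ p + θ * |a| ^ p) := fun a b => hmz0 a b θ hθ0 hθ1
  set T : ℝ := θ ^ q / (16 * C0) with hT
  have hT0 : 0 < T := by rw [hT]; positivity
  set τ : ℝ := T ^ (1 / p) with hτ
  have hτ0 : 0 < τ := by rw [hτ]; positivity
  have hτp : τ ^ p = T := by
    rw [hτ, ← Real.rpow_mul hT0.le, one_div_mul_cancel hp0.ne', Real.rpow_one]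
  have hTeq : θ ^ (-q) * (2 * (2 * T)) = 1 / (4 * C0) := by
    rw [hT, Real.rpow_neg hθ0.le]
    have : 0 < θ ^ q := Real.rpow_pos_of_pos hθ0 q
    field_simp
    norm_num
  have hθeq : θ * (3 * Real.log (Fintype.card X)) = 1 / (4 * C0) := by
    rw [← hl, hθ]
    field_simp
    norm_num
  -- distances
  set d : X → X → ℝ := fun x y => (∑ ω', |u ω' x - u ω' y| ^ p) ^ (1 / p) with hd
  have hd0 : ∀ x y, 0 ≤ d x y := fun x y => by simp only [hd]; positivity
  have hdp : ∀ x y, d x y ^ p = ∑ ω', |u ω' x - u ω' y| ^ p := fun x y => by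
    simp only [hd]
    rw [← Real.rpow_mul (by positivity), one_div_mul_cancel hp0.ne', Real.rpow_one]
  have hud : ∀ ω x y, |u ω x - u ω y| ≤ d x y := by
    intro ω x y
    have h1 : |u ω x - u ω y| ^ p ≤ d x y ^ p := by
      rw [hdp]
      exact Finset.single_le_sum (f := fun ω' => |u ω' x - u ω' y| ^ p)
        (fun ω' _ => by positivity) (mem_univ ω)
    exact (Real.rpow_le_rpow_iff (abs_nonneg _) (hd0 x y) hp0).1 h1
  set D0 : ℝ := 1 + ∑ x, ∑ y, d x y with hD0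
  have hD00 : 0 < D0 := by
    have : 0 ≤ ∑ x, ∑ y, d x y := Finset.sum_nonneg fun x _ => Finset.sum_nonneg fun y _ => hd0 x y
    linarith
  have hdD : ∀ x y, d x y ≤ D0 := by
    intro x y
    have h1 : d x y ≤ ∑ y, d x y := Finset.single_le_sum (fun y _ => hd0 x y) (mem_univ y)
    have h2 : ∑ y, d x y ≤ ∑ x, ∑ y, d x y :=
      Finset.single_le_sum (f := fun x => ∑ y, d x y)
        (fun x _ => Finset.sum_nonneg fun y _ => hd0 x y) (mem_univ x)
    linarith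
  -- the number of scales
  obtain ⟨m, hm⟩ : ∃ m : ℕ, ∀ x y, 0 < d x y → D0 * (1 / 2) ^ m < 2 * d x y := by
    have h1 : Filter.Tendsto (fun m : ℕ => D0 * (1 / 2 : ℝ) ^ m) Filter.atTop (nhds 0) := by
      have := (tendsto_pow_atTop_nhds_zero_of_lt_one (r := (1 / 2 : ℝ)) (by norm_num)
        (by norm_num)).const_mul D0
      simpa using this
    have h2 : ∀ᶠ m : ℕ in Filter.atTop, ∀ x y, 0 < d x y → D0 * (1 / 2) ^ m < 2 * d x y := by
      rw [Filter.eventually_all]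
      intro x
      rw [Filter.eventually_all]
      intro y
      by_cases h : 0 < d x y
      · filter_upwards [h1.eventually (gt_mem_nhds (by linarith : 0 < 2 * d x y))] with m hm _
        exact hm
      · exact Filter.Eventually.of_forall fun m h' => absurd h' h
    exact h2.exists
  obtain ⟨t, ht⟩ : ∃ t : ℕ → ℝ, ∀ k, t k = D0 / τ * (1 / 2) ^ k := ⟨_, fun k => rfl⟩
  have ht0 : ∀ k, 0 < t k := fun k => by rw [ht]; positivity
  have htk : ∀ k, τ * t k = D0 * (1 / 2) ^ k := fun k => by rw [ht]; field_simp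
  have htm : ∀ k, k ≤ m → t m ≤ t k := by
    intro k hk
    rw [ht, ht]
    apply mul_le_mul_of_nonneg_left _ (by positivity)
    exact pow_le_pow_of_le_one (by norm_num) (by norm_num) hk
  have ht2 : ∀ k, t k = 2 * t (k + 1) := fun k => by
    rw [ht, ht, pow_succ]; ring
  obtain ⟨N, hN⟩ := exists_nat_ge (1 + 16 * D0 ^ p / t m ^ p)
  have hN' : 0 ≤ 16 * D0 ^ p / t m ^ p := by have := ht0 m; positivity
  have hN0 : 0 < (N:ℝ) := by linarith
  obtain ⟨κ, hκ⟩ : ∃ κ : ℕ → ℝ, ∀ k, κ k = √(1 / (N * t k ^ p)) := ⟨_, fun k => rfl⟩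
  have hκ2 : ∀ k, κ k ^ 2 = 1 / (N * t k ^ p) := fun k => by
    have := ht0 k
    rw [hκ, Real.sq_sqrt (by positivity)]
  have hadm : ∀ k, k ≤ m + 1 → Adm p u (sched Ω N κ k) :=
    adm_sched hp0 hD00 (fun ω x y => (hud ω x y).trans (hdD x y)) ht0 htm hN0 (by linarith) hκ
  obtain ⟨S, hS⟩ : ∃ S, S = sched Ω N κ (m + 1) := ⟨_, rfl⟩
  have hadmS : Adm p u S := by rw [hS]; exact hadm _ le_rfl
  have hL1 : ∀ x : X, 0 < (fun _ => (1:ℝ)) x := fun _ => one_pos
  obtain ⟨E, hE⟩ : ∃ E : Ω → X → ℝ, ∀ ω x, E ω x = En p u ω x S (fun _ => 1) := ⟨_, fun _ _ => rfl⟩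
  have hE0 : ∀ ω x, 0 ≤ E ω x := fun ω x => by
    rw [hE]; exact En_nonneg hp0 u ω x S _ hL1 hadmS
  refine ⟨E, hE0, ?_, ?_⟩
  · intro x
    have hsum : ∑ x : X, (fun _ => (1:ℝ)) x = Fintype.card X := by simp
    have h1 := ent_bound hp0 u x S _ hL1 hsum hadmS
    simp only [Real.log_one, sub_zero, one_mul] at h1
    rw [← hl] at h1
    rw [Finset.sum_congr rfl fun ω _ => hE ω x]
    exact h1
  intro ω x y
  have hB : 16 * 2 ^ (p - 1) * (2 / τ) ^ p =
      16 * 2 ^ (p - 1) * 2 ^ p * (16 * C0) * (12 * C0) ^ q * l ^ q := by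
    rw [Real.div_rpow (by norm_num) hτ0.le, hτp, hT, hθ, Real.div_rpow (by norm_num)
      (by positivity), Real.one_rpow, Real.mul_rpow (by positivity) hl0.le]
    have h4 : 0 < (12 * C0) ^ q := by positivity
    have h5 : 0 < l ^ q := by positivity
    field_simp
  rw [← hB, ← hdp]
  have hmx : 0 ≤ max (E ω x) (E ω y) := (hE0 ω x).trans (le_max_left _ _)
  rcases (hd0 x y).eq_or_lt with h0 | h0
  · have h1 : |u ω x - u ω y| = 0 := le_antisymm (by rw [h0]; exact hud ω x y) (abs_nonneg _)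
    rw [h1, Real.zero_rpow hp0.ne']
    have := hd0 x y
    positivity
  · have hex : ∃ k : ℕ, D0 * (1 / 2) ^ k < 2 * d x y := ⟨m, hm x y h0⟩
    obtain ⟨k, hk, hkmin⟩ : ∃ k : ℕ, D0 * (1 / 2) ^ k < 2 * d x y ∧
        ∀ j < k, ¬ (D0 * (1 / 2) ^ j < 2 * d x y) :=
      ⟨Nat.find hex, Nat.find_spec hex, fun j hj => Nat.find_min hex hj⟩
    have hkm : k ≤ m := by
      by_contra h
      exact hkmin m (by omega) (hm x y h0)
    have hdk : d x y ≤ τ * t k := by
      rw [htk]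
      rcases Nat.eq_zero_or_pos k with h | h
      · rw [h]; simpa using hdD x y
      · have h1 := hkmin (k - 1) (by omega)
        have h2 : D0 * (1 / 2 : ℝ) ^ (k - 1) = 2 * (D0 * (1 / 2) ^ k) := by
          have : k = (k - 1) + 1 := by omega
          rw [this, pow_succ]; simp only [Nat.add_sub_cancel]; ring
        rw [h2] at h1
        linarith
    obtain ⟨S', hS'⟩ := sched_split (Ω := Ω) N κ (show k + 1 ≤ m + 1 by omega)
    have htk0 := ht0 k
    have h1 : ∑ ω', |u ω' x - u ω' y| ^ p ≤ T * t k ^ p := by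
      rw [← hdp, ← hτp, ← Real.mul_rpow hτ0.le htk0.le]
      exact Real.rpow_le_rpow (hd0 x y) hdk hp0.le
    have h6 := pair_bound hp hC0 hθ0 hmz hT0 hTeq hθeq u x y hN0 ht0 ht2 hκ2 k
      (hadm _ (by omega)) h1 ω
    have hmono : ∀ x', En p u ω x' (sched Ω N κ (k + 1)) (fun _ => 1) ≤ E ω x' := by
      intro x'
      have h1 := hadm (m + 1) le_rfl
      rw [hS'] at h1
      have h2 := En_append hp0 u ω x' _ S' (fun _ => 1) hL1 h1
      rw [← hS', ← hS] at h2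
      rw [hE]
      exact h2
    have hmm := max_le_max (hmono x) (hmono y)
    have h9 : t k ^ p ≤ (2 / τ) ^ p * d x y ^ p := by
      rw [← Real.mul_rpow (by positivity) (hd0 x y)]
      apply Real.rpow_le_rpow htk0.le _ hp0.le
      rw [← htk] at hk
      rw [div_mul_eq_mul_div, le_div_iff₀ hτ0]
      linarith
    calc |u ω x - u ω y| ^ p ≤ _ := h6
      _ ≤ 16 * 2 ^ (p - 1) * t k ^ p * max (E ω x) (E ω y) :=
          mul_le_mul_of_nonneg_left hmm (by positivity)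
      _ ≤ 16 * 2 ^ (p - 1) * ((2 / τ) ^ p * d x y ^ p) * max (E ω x) (E ω y) := by
          apply mul_le_mul_of_nonneg_right _ hmx
          exact mul_le_mul_of_nonneg_left h9 (by positivity)
      _ = _ := by ring

end orient

/-- the orientation lemma -/
theorem orient (p : ℝ) (hp : 1 ≤ p) : ∃ C : ℝ, 1 ≤ C ∧ ∀ (X Ω : Type) [Fintype X] [Fintype Ω]
    (u : Ω → X → ℝ), 2 ≤ Fintype.card X → ∃ a : Ω → X → ℝ, (∀ ω x, 0 ≤ a ω x) ∧
      (∀ ω x y, |u ω x - u ω y| ≤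
        max (a ω x) (a ω y) * (∑ ω', |u ω' x - u ω' y| ^ p) ^ (1 / p)) ∧
      ∀ x, ∑ ω, a ω x ^ p ≤
        C * Real.log (Fintype.card X) ^ (1 + max 0 ((p - 2) / 2)) := by
  have hp0 : 0 < p := by linarith
  obtain ⟨C0, hC0, hmz0⟩ := mz_diff p hp
  set q : ℝ := max 0 ((p - 2) / 2) with hq
  have hq0 : 0 ≤ q := le_max_left _ _
  have hbase : 1 ≤ 12 * C0 := by linarith
  refine ⟨16 * 2 ^ (p - 1) * 2 ^ p * (16 * C0) * (12 * C0) ^ q * (3 / 2), ?_, ?_⟩
  · have a1 : (1:ℝ) ≤ 2 ^ (p - 1) := Real.one_le_rpow (by norm_num) (by linarith)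
    have a2 : (1:ℝ) ≤ 2 ^ p := Real.one_le_rpow (by norm_num) (by linarith)
    have a3 : (1:ℝ) ≤ (12 * C0) ^ q := Real.one_le_rpow hbase hq0
    have a4 : (1:ℝ) ≤ 16 * 2 ^ (p - 1) := by linarith
    have a5 : (1:ℝ) ≤ 16 * 2 ^ (p - 1) * 2 ^ p := one_le_mul_of_one_le_of_one_le a4 a2
    have a6 : (1:ℝ) ≤ 16 * 2 ^ (p - 1) * 2 ^ p * (16 * C0) :=
      one_le_mul_of_one_le_of_one_le a5 (by linarith)
    have a7 : (1:ℝ) ≤ 16 * 2 ^ (p - 1) * 2 ^ p * (16 * C0) * (12 * C0) ^ q :=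
      one_le_mul_of_one_le_of_one_le a6 a3
    linarith
  intro X Ω _ _ u hn
  classical
  have : Nonempty X := Fintype.card_pos_iff.1 (by omega)
  have hl0 : 0 < Real.log (Fintype.card X) :=
    Real.log_pos (by exact_mod_cast (by omega : 1 < Fintype.card X))
  obtain ⟨E, hE0, hE1, hE2⟩ := orient_energy hp hC0 hmz0 u hn
  set l : ℝ := Real.log (Fintype.card X) with hl
  set B : ℝ := 16 * 2 ^ (p - 1) * 2 ^ p * (16 * C0) * (12 * C0) ^ q * l ^ q with hB
  have hB0 : 0 < B := by rw [hB]; positivity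
  refine ⟨fun ω x => (B * E ω x) ^ (1 / p), fun ω x => ?_, ?_, ?_⟩
  · have := hE0 ω x
    positivity
  · intro ω x y
    have hd0 : 0 ≤ ∑ ω', |u ω' x - u ω' y| ^ p := Finset.sum_nonneg fun ω' _ => by positivity
    have hmx : 0 ≤ max (E ω x) (E ω y) := (hE0 ω x).trans (le_max_left _ _)
    have h1 : |u ω x - u ω y| = (|u ω x - u ω y| ^ p) ^ (1 / p) := by
      rw [← Real.rpow_mul (abs_nonneg _), mul_one_div_cancel hp0.ne', Real.rpow_one]
    rw [h1]
    refine (Real.rpow_le_rpow (by positivity) (hE2 ω x y) (by positivity)).trans ?_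
    rw [Real.mul_rpow (by positivity) hd0]
    apply mul_le_mul_of_nonneg_right _ (by positivity)
    rcases max_choice (E ω x) (E ω y) with h | h
    · rw [h]; exact le_max_left _ _
    · rw [h]; exact le_max_right _ _
  · intro x
    have e1 : ∀ ω, ((B * E ω x) ^ (1 / p)) ^ p = B * E ω x := fun ω => by
      have := hE0 ω x
      rw [← Real.rpow_mul (by positivity), one_div_mul_cancel hp0.ne', Real.rpow_one]
    rw [Finset.sum_congr rfl fun ω _ => e1 ω, ← Finset.mul_sum]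
    calc B * ∑ ω, E ω x ≤ B * (3 / 2 * l) := mul_le_mul_of_nonneg_left (hE1 x) hB0.le
      _ = 16 * 2 ^ (p - 1) * 2 ^ p * (16 * C0) * (12 * C0) ^ q * (3 / 2) * (l * l ^ q) := by
          rw [hB]; ring
      _ = _ := by rw [Real.rpow_add hl0, Real.rpow_one]

end Vale.Agent.P249C
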