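import Mathlib
import Vale.Agent.Lib.P249C.Assemble
import Vale.Agent.Lib.P249C.Orient

/-!
P249C: near-isometric embeddings of finite subsets of `ℓ_p^Ω` in subpolynomial dimension.
-/

open Finset

namespace Vale.Agent.P249C

/-- padding by zeros -/
lemma pad {X : Type} {p : ℝ} (hp : 0 < p) {N N' : ℕ} (h : N ≤ N') (G : X → Fin N → ℝ) :
    ∃ G' : X → Fin N' → ℝ, ∀ x y,
      ∑ k, |G' x k - G' y k| ^ p = ∑ k, |G x k - G y k| ^ p := by
  refine ⟨fun x k => if hk : (k:ℕ) < N then G x ⟨k, hk⟩ else 0, fun x y => ?_⟩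
  set F : ℕ → ℝ := fun k => if hk : k < N then |G x ⟨k, hk⟩ - G y ⟨k, hk⟩| ^ p else 0 with hF
  have h1 : ∀ k : Fin N', |(if hk : (k:ℕ) < N then G x ⟨k, hk⟩ else 0) -
      (if hk : (k:ℕ) < N then G y ⟨k, hk⟩ else 0)| ^ p = F k := by
    intro k
    simp only [hF]
    split_ifs
    · rfl
    · simp [Real.zero_rpow hp.ne']
  have h2 : ∀ k : Fin N, |G x k - G y k| ^ p = F k := by
    intro k
    simp only [hF, k.2, dif_pos]
  rw [Finset.sum_congr rfl fun k _ => h1 k, Finset.sum_congr rfl fun k _ => h2 k,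
    Fin.sum_univ_eq_sum_range F N', Fin.sum_univ_eq_sum_range F N]
  symm
  apply Finset.sum_subset (range_subset_range.2 h)
  intro k _ hk
  simp only [hF]
  rw [dif_neg (by simpa using hk)]

/-- the exponent -/
lemma expo {p : ℝ} (hp : 1 ≤ p) :
    (1 + max 0 ((p - 2) / 2)) * (1 / p) = max (1 / p) (1 / 2) := by
  have hp0 : 0 < p := by linarith
  rcases le_total p 2 with h | h
  · rw [max_eq_left (by linarith), max_eq_left, add_zero, one_mul]
    exact one_div_le_one_div_of_le hp0 h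
  · rw [max_eq_right (by linarith), max_eq_right]
    · field_simp; ring
    · exact one_div_le_one_div_of_le (by norm_num) h

/-- the dimension -/
lemma num_bound {p ε c Co M A1 t q r J Lv w : ℝ} (hp0 : 0 < p) (hε0 : 0 < ε) (hc : 1 ≤ c)
    (hCo : 1 ≤ Co) (hM1 : 1 ≤ M) (ht1 : 1 ≤ t) (hq0 : 0 ≤ q) (hr0 : 0 < r)
    (hJ0 : 0 ≤ J) (hJle : J ≤ A1 * t ^ r) (hLv : 0 ≤ Lv) (hLvle : Lv + 1 ≤ 3 * t)
    (hw0 : 0 ≤ w) (hw : w ≤ t) :
    M * (Lv + 1) * (c * (2 ^ (p * (2 * M * J + 1)) * (Co * t ^ (1 + q))) * (3 * M) *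
        w / (ε / 3 / (Lv + 1))) ^ c ≤
      Real.exp ((3 * M + 1 / r + c * (27 * c * Co * M / ε + p * (2 * M * A1 + 1) +
        (3 + q) / r)) * t ^ r) := by
  have ht0 : 0 < t := by linarith
  obtain ⟨E, hE⟩ : ∃ E, E = t ^ r := ⟨_, rfl⟩
  have hE1 : 1 ≤ E := by rw [hE]; exact Real.one_le_rpow ht1 hr0.le
  have hE0 : 0 < E := by linarith
  rw [← hE] at hJle ⊢
  have hLv0 : 0 < Lv + 1 := by positivity
  have hc0 : 0 ≤ c := by linarith
  have hM0 : 0 < M := by linarith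
  have hCo0 : 0 < Co := by linarith
  obtain ⟨A0, hA0⟩ : ∃ A0, A0 = 27 * c * Co * M / ε := ⟨_, rfl⟩
  have hA0' : 0 < A0 := by rw [hA0]; positivity
  rw [← hA0]
  have hexpt : t ≤ Real.exp (1 / r * E) := by
    have h1 := Real.log_le_rpow_div ht0.le hr0
    rw [← hE] at h1
    calc t = Real.exp (Real.log t) := (Real.exp_log ht0).symm
      _ ≤ Real.exp (1 / r * E) := Real.exp_le_exp.2 (by rw [one_div_mul_eq_div]; exact h1)
  have hexpc : ∀ A : ℝ, 0 ≤ A → A ≤ Real.exp (A * E) := by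
    intro A hA
    have h1 := Real.add_one_le_exp (A * E)
    have h2 : A ≤ A * E := le_mul_of_one_le_right hA hE1
    linarith
  have hexptq : t ^ (3 + q) ≤ Real.exp ((3 + q) / r * E) := by
    have h1 := Real.rpow_le_rpow ht0.le hexpt (by linarith : 0 ≤ 3 + q)
    rw [← Real.exp_mul] at h1
    refine h1.trans (le_of_eq ?_)
    congr 1; ring
  obtain ⟨P, hP⟩ : ∃ P : ℝ, P = (2:ℝ) ^ (p * (2 * M * J + 1)) := ⟨_, rfl⟩
  have hP0 : 0 < P := by rw [hP]; positivity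
  have hexpJ : P ≤ Real.exp (p * (2 * M * A1 + 1) * E) := by
    rw [hP]
    have h1 : (2:ℝ) ≤ Real.exp 1 := by
      have := Real.add_one_le_exp 1; linarith
    have h2 := Real.rpow_le_rpow (by norm_num) h1 (by positivity : 0 ≤ p * (2 * M * J + 1))
    rw [← Real.exp_mul, one_mul] at h2
    refine h2.trans (Real.exp_le_exp.2 ?_)
    have h3 : 2 * M * J + 1 ≤ (2 * M * A1 + 1) * E := by
      have h4 : 2 * M * J ≤ 2 * M * (A1 * E) := mul_le_mul_of_nonneg_left hJle (by positivity)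
      linarith
    calc p * (2 * M * J + 1) ≤ p * ((2 * M * A1 + 1) * E) := mul_le_mul_of_nonneg_left h3 hp0.le
      _ = _ := by ring
  rw [← hP]
  have hinner : c * (P * (Co * t ^ (1 + q))) * (3 * M) * w / (ε / 3 / (Lv + 1)) ≤
      Real.exp ((A0 + p * (2 * M * A1 + 1) + (3 + q) / r) * E) := by
    have h1 : c * (P * (Co * t ^ (1 + q))) * (3 * M) * w / (ε / 3 / (Lv + 1)) =
        (9 * c * Co * M / ε) * P * (t ^ (1 + q) * (w * (Lv + 1))) := by
      field_simp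
      ring
    have h2 : w * (Lv + 1) ≤ t * (3 * t) :=
      mul_le_mul hw hLvle hLv0.le ht0.le
    have h3 : t ^ (1 + q) * (t * (3 * t)) = 3 * t ^ (3 + q) := by
      have e1 : t ^ (3 + q) = t ^ (1 + q) * t ^ (2:ℝ) := by
        rw [← Real.rpow_add ht0]; congr 1; ring
      rw [e1, Real.rpow_two]; ring
    rw [h1]
    calc (9 * c * Co * M / ε) * P * (t ^ (1 + q) * (w * (Lv + 1))) ≤
        (9 * c * Co * M / ε) * P * (t ^ (1 + q) * (t * (3 * t))) := by
          apply mul_le_mul_of_nonneg_left _ (by positivity)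
          exact mul_le_mul_of_nonneg_left h2 (by positivity)
      _ = A0 * P * t ^ (3 + q) := by
          rw [h3, hA0]; ring
      _ ≤ Real.exp (A0 * E) * Real.exp (p * (2 * M * A1 + 1) * E) *
          Real.exp ((3 + q) / r * E) := by
          apply mul_le_mul _ hexptq (by positivity) (by positivity)
          exact mul_le_mul (hexpc A0 hA0'.le) hexpJ hP0.le (by positivity)
      _ = _ := by
          rw [← Real.exp_add, ← Real.exp_add]
          congr 1; ring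
  calc M * (Lv + 1) * (c * (P * (Co * t ^ (1 + q))) * (3 * M) * w / (ε / 3 / (Lv + 1))) ^ c
      ≤ M * (3 * t) * (Real.exp ((A0 + p * (2 * M * A1 + 1) + (3 + q) / r) * E)) ^ c := by
        apply mul_le_mul _ _ (by positivity) (by positivity)
        · exact mul_le_mul_of_nonneg_left hLvle (by positivity)
        · exact Real.rpow_le_rpow (by positivity) hinner hc0
    _ = (3 * M) * t * Real.exp (c * (A0 + p * (2 * M * A1 + 1) + (3 + q) / r) * E) := by
        rw [← Real.exp_mul]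
        have : (A0 + p * (2 * M * A1 + 1) + (3 + q) / r) * E * c =
          c * (A0 + p * (2 * M * A1 + 1) + (3 + q) / r) * E := by ring
        rw [this]; ring
    _ ≤ Real.exp (3 * M * E) * Real.exp (1 / r * E) *
        Real.exp (c * (A0 + p * (2 * M * A1 + 1) + (3 + q) / r) * E) := by
        apply mul_le_mul_of_nonneg_right _ (by positivity)
        exact mul_le_mul (hexpc _ (by positivity)) hexpt ht0.le (by positivity)
    _ = _ := by
        rw [← Real.exp_add, ← Real.exp_add]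
        congr 1
        ring

/-- window length -/
lemma exists_window {p ε Cn Co t q r : ℝ} (hp : 1 ≤ p) (hε0 : 0 < ε) (hCn : 1 ≤ Cn)
    (hCo : 1 ≤ Co) (ht1 : 1 ≤ t) (hexpo : (1 + q) * (1 / p) = r) (hr0 : 0 < r) :
    ∃ J : ℕ, 1 ≤ J ∧ (J:ℝ) ≤ ((6 * Cn * Co / ε) ^ (1 / p) + 1) * t ^ r ∧
      2 * Cn * (Co * t ^ (1 + q)) ≤ ε / 3 * (J:ℝ) ^ p := by
  have hp0 : 0 < p := by linarith
  have ht0 : 0 < t := by linarith
  have hE1 : 1 ≤ t ^ r := Real.one_le_rpow ht1 hr0.le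
  obtain ⟨J0, hJ0⟩ : ∃ J0, J0 = (6 * Cn * (Co * t ^ (1 + q)) / ε) ^ (1 / p) := ⟨_, rfl⟩
  have hJ00 : 0 < J0 := by rw [hJ0]; positivity
  refine ⟨⌈J0⌉₊, Nat.one_le_iff_ne_zero.2 (Nat.ceil_pos.2 hJ00).ne', ?_, ?_⟩
  · have h1 : (⌈J0⌉₊:ℝ) < J0 + 1 := Nat.ceil_lt_add_one hJ00.le
    have h2 : J0 = (6 * Cn * Co / ε) ^ (1 / p) * t ^ r := by
      rw [hJ0, ← hexpo, Real.rpow_mul ht0.le, ← Real.mul_rpow (by positivity) (by positivity)]
      congr 1
      ring
    rw [add_mul, one_mul]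
    linarith
  · have h1 : J0 ^ p ≤ (⌈J0⌉₊:ℝ) ^ p := Real.rpow_le_rpow hJ00.le (Nat.le_ceil _) hp0.le
    have h2 : J0 ^ p = 6 * Cn * (Co * t ^ (1 + q)) / ε := by
      rw [hJ0, ← Real.rpow_mul (by positivity), one_div_mul_cancel hp0.ne', Real.rpow_one]
    rw [h2, div_le_iff₀ hε0] at h1
    linarith

/-- number of levels -/
lemma exists_levels {n : ℕ} (hn : 2 ≤ n) :
    ∃ Lv : ℕ, (n:ℝ) ≤ 2 ^ Lv ∧ (Lv:ℝ) + 1 ≤ 3 * (2 * Real.log n) := by
  have hn' : (2:ℝ) ≤ n := by exact_mod_cast hn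
  have hl2 : Real.log 2 ≤ Real.log n := Real.log_le_log (by norm_num) hn'
  have hlog2 : 1 / 2 < Real.log 2 := by
    have := Real.log_two_gt_d9; linarith
  have hl0 : 0 < Real.log n := by linarith
  refine ⟨⌈Real.log n / Real.log 2⌉₊, ?_, ?_⟩
  · have hLvge : Real.log n / Real.log 2 ≤ ⌈Real.log n / Real.log 2⌉₊ := Nat.le_ceil _
    rw [div_le_iff₀ (by linarith)] at hLvge
    have h1 := Real.exp_le_exp.2 hLvge
    rw [Real.exp_log (by linarith), mul_comm, Real.exp_mul, Real.exp_log (by norm_num),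
      Real.rpow_natCast] at h1
    exact h1
  · have h1 : (⌈Real.log n / Real.log 2⌉₊:ℝ) < Real.log n / Real.log 2 + 1 :=
      Nat.ceil_lt_add_one (by positivity)
    have h2 : Real.log n / Real.log 2 ≤ 2 * Real.log n := by
      rw [div_le_iff₀ (by linarith)]; nlinarith
    linarith

/-- near-isometric dimension reduction for finite subsets of `ℓ_p^Ω` -/
theorem approx_embed (p : ℝ) (hp : 1 ≤ p) (ε : ℝ) (hε0 : 0 < ε) (hε1 : ε ≤ 1) :
    ∃ C : ℝ, 0 < C ∧ ∀ (X Ω : Type) [Fintype X] [DecidableEq X] [Fintype Ω] (u : Ω → X → ℝ),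
      2 ≤ Fintype.card X → ∃ (N : ℕ) (G : X → Fin N → ℝ),
        (N:ℝ) ≤ Real.exp (C * Real.log (Fintype.card X) ^ (max (1 / p) (1 / 2))) ∧
        ∀ x y, |∑ k, |G x k - G y k| ^ p - ∑ ω, |u ω x - u ω y| ^ p| ≤
          ε * ∑ ω, |u ω x - u ω y| ^ p := by
  have hp0 : 0 < p := by linarith
  obtain ⟨M, Cn, hM, hCn, hna⟩ := near_add p hp (ε / 3) (by linarith)
  obtain ⟨c, hc, hpart⟩ := part_lemma p hp
  obtain ⟨Co, hCo, hor⟩ := orient p hp
  obtain ⟨q, hq⟩ : ∃ q, q = max 0 ((p - 2) / 2) := ⟨_, rfl⟩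
  have hq0 : 0 ≤ q := by rw [hq]; exact le_max_left _ _
  obtain ⟨r, hr⟩ : ∃ r, r = max (1 / p) (1 / 2) := ⟨_, rfl⟩
  have hr0 : 0 < r := by rw [hr]; exact lt_of_lt_of_le (by norm_num) (le_max_right _ _)
  have hexpo : (1 + q) * (1 / p) = r := by rw [hq, hr]; exact expo hp
  have hM1 : (1:ℝ) ≤ M := by exact_mod_cast hM
  rw [← hq] at hor
  rw [← hr]
  -- constants
  obtain ⟨A1, hA1⟩ : ∃ A1, A1 = (6 * Cn * Co / ε) ^ (1 / p) + 1 := ⟨_, rfl⟩
  have hA1' : 0 < A1 := by rw [hA1]; positivity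
  obtain ⟨C', hC'⟩ : ∃ C', C' = 3 * M + 1 / r + c * (27 * c * Co * M / ε +
    p * (2 * M * A1 + 1) + (3 + q) / r) := ⟨_, rfl⟩
  have hC'0 : 0 < C' := by rw [hC']; positivity
  refine ⟨C' * 2 ^ r, by positivity, ?_⟩
  intro X Ω _ _ _ u hn
  have hn' : (2:ℝ) ≤ Fintype.card X := by exact_mod_cast hn
  obtain ⟨l, hl⟩ : ∃ l, l = Real.log (Fintype.card X) := ⟨_, rfl⟩
  have hl2 : Real.log 2 ≤ l := by rw [hl]; exact Real.log_le_log (by norm_num) hn'
  have hlog2 : 1 / 2 < Real.log 2 := by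
    have := Real.log_two_gt_d9; linarith
  have hl0 : 0 < l := by linarith
  obtain ⟨t, ht⟩ : ∃ t, t = 2 * l := ⟨_, rfl⟩
  have ht1 : 1 ≤ t := by rw [ht]; linarith
  have ht0 : 0 < t := by linarith
  obtain ⟨a, ha0, hua, haΛ⟩ := hor X Ω u hn
  have htq : 1 ≤ t ^ (1 + q) := Real.one_le_rpow ht1 (by linarith)
  have hΛ1 : 1 ≤ Co * t ^ (1 + q) := one_le_mul_of_one_le_of_one_le hCo htq
  have haΛ' : ∀ x, ∑ ω, a ω x ^ p ≤ Co * t ^ (1 + q) := by
    intro x
    refine (haΛ x).trans ?_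
    apply mul_le_mul_of_nonneg_left _ (by linarith)
    rw [← hl]
    exact Real.rpow_le_rpow hl0.le (by rw [ht]; linarith) (by linarith)
  obtain ⟨J, hJ1, hJle, hJΛ⟩ := exists_window hp hε0 hCn hCo ht1 hexpo hr0
  obtain ⟨Lv, hLv, hLvle⟩ := exists_levels hn
  rw [← hl, ← ht] at hLvle
  rw [← hA1] at hJle
  obtain ⟨N, G, hN, hG⟩ := assemble hp (ε := ε / 3) (by linarith) (by linarith) hM hna
    (by linarith) hpart X Ω u a hΛ1 ha0 hua haΛ' hJ1 hJΛ hLv
  refine ⟨N, G, hN.trans ?_, fun x y => ?_⟩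
  swap
  · refine (hG x y).trans (le_of_eq ?_)
    ring
  have hlogn : Real.log (Fintype.card X + 2) ≤ t := by
    have h1 : (Fintype.card X : ℝ) + 2 ≤ (Fintype.card X : ℝ) ^ 2 := by nlinarith
    have h2 := Real.log_le_log (by positivity) h1
    rw [Real.log_pow] at h2
    rw [ht, hl]; exact_mod_cast h2
  have hlogn0 : 0 ≤ Real.log (Fintype.card X + 2) := Real.log_nonneg (by linarith)
  refine (num_bound hp0 hε0 hc hCo hM1 ht1 hq0 hr0 (Nat.cast_nonneg J) hJle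
    (Nat.cast_nonneg Lv) hLvle hlogn0 hlogn).trans (le_of_eq ?_)
  rw [← hC', ht, Real.mul_rpow (by norm_num) hl0.le, ← hl]
  congr 1; ring

end Vale.Agent.P249C
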