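import Mathlib
import Vale.Agent.Lib.P249B.Final
import Vale.Agent.Lib.P249C.Bound

/-!
P249C: the subpolynomial bound for `d_p(n, D)`, every `D > 1`.
-/

open Finset MeasureTheory
open scoped ENNReal

namespace Vale.Agent.P249C

open Vale.Agent.P249 Vale.Agent.P249B

universe u

/-- near-isometries in the `p`-th powers -/
lemma lp_of_pow {ι κ : Type} [Fintype ι] [Fintype κ] {p ε s : ℝ} (hp : 1 ≤ p) (hε0 : 0 < ε)
    (hε1 : ε < 1) (hs1 : 1 ≤ s) (hs : 1 + ε = s * (1 - ε)) (f : ι → ℝ) (g : κ → ℝ)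
    (h : |∑ k, |f k| ^ p - ∑ ω, |g ω| ^ p| ≤ ε * ∑ ω, |g ω| ^ p) :
    (1 - ε) ^ (1 / p) * lp p g ≤ lp p f ∧ lp p f ≤ s * (1 - ε) ^ (1 / p) * lp p g := by
  have hp0 : 0 < p := by linarith
  have hG : 0 ≤ ∑ ω, |g ω| ^ p := Finset.sum_nonneg fun ω _ => by positivity
  have hF : 0 ≤ ∑ k, |f k| ^ p := Finset.sum_nonneg fun ω _ => by positivity
  obtain ⟨h1, h2⟩ := abs_le.1 h
  unfold Vale.Agent.P249B.lp
  have h1ε : 0 ≤ 1 - ε := by linarith
  constructor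
  · rw [← Real.mul_rpow h1ε hG]
    apply Real.rpow_le_rpow (mul_nonneg h1ε hG) _ (by positivity)
    linarith
  · have h3 : s ^ (1 / p) ≤ s := by
      have h4 := Real.rpow_le_rpow_of_exponent_le hs1 ((div_le_one hp0).2 hp)
      rwa [Real.rpow_one] at h4
    calc (∑ k, |f k| ^ p) ^ (1 / p) ≤ (s * (1 - ε) * ∑ ω, |g ω| ^ p) ^ (1 / p) := by
          apply Real.rpow_le_rpow hF _ (by positivity)
          rw [← hs]; linarith
      _ = s ^ (1 / p) * (1 - ε) ^ (1 / p) * (∑ ω, |g ω| ^ p) ^ (1 / p) := by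
          rw [Real.mul_rpow (by positivity) hG, Real.mul_rpow (by linarith) h1ε]
      _ ≤ s * (1 - ε) ^ (1 / p) * (∑ ω, |g ω| ^ p) ^ (1 / p) := by
          apply mul_le_mul_of_nonneg_right _ (by positivity)
          exact mul_le_mul_of_nonneg_right h3 (by positivity)

/-- `d_p(n, D) ≤ exp(C (log n)^{max(1/p, 1/2)})` for every `D > 1` -/
theorem sub_bound {p D : ℝ} (hp : 1 ≤ p) (hD : 1 < D) : ∃ C : ℝ, 0 < C ∧ ∀ n : ℕ, 2 ≤ n →
    Admits.{u} p D n (dimP.{u} p D n) ∧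
    (dimP.{u} p D n : ℝ) ≤ Real.exp (C * Real.log n ^ (max (1 / p) (1 / 2))) := by
  have hp0 : 0 < p := by linarith
  obtain ⟨s, hs⟩ : ∃ s, s = √D := ⟨_, rfl⟩
  have hs1 : 1 < s := by rw [hs, Real.lt_sqrt (by norm_num)]; linarith
  have hss : s * s = D := by rw [hs, Real.mul_self_sqrt (by linarith)]
  obtain ⟨η, hη⟩ : ∃ η, η = (s - 1) / (s + 1) := ⟨_, rfl⟩
  have hη0 : 0 < η := by rw [hη]; exact div_pos (by linarith) (by linarith)
  have hη1 : η < 1 := by rw [hη, div_lt_one (by linarith)]; linarith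
  have hηs : 1 + η = s * (1 - η) := by
    rw [hη]
    have : s + 1 ≠ 0 := by linarith
    field_simp
    ring
  obtain ⟨C, hC, h⟩ := approx_embed p hp η hη0 hη1.le
  refine ⟨C, hC, fun n hn => ?_⟩
  obtain ⟨N, hN⟩ : ∃ N : ℕ, N = ⌊Real.exp (C * Real.log n ^ (max (1 / p) (1 / 2)))⌋₊ := ⟨_, rfl⟩
  have hadm : Admits.{u} p D n N := by
    intro Ω _ μ X hX
    obtain ⟨e, G, hG⟩ := rep_fin hp X hX hη0
    obtain ⟨N', g, hN', hg⟩ := h (Fin n) (Fin (n ^ 2 + 1)) (fun ω x => G x ω)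
      (by rw [Fintype.card_fin]; exact hn)
    rw [Fintype.card_fin] at hN'
    have hNN : N' ≤ N := by rw [hN]; exact Nat.le_floor hN'
    obtain ⟨g', hg'⟩ := pad hp0 hNN g
    apply embeds_of hp X hη1 hη0 (c := (1 - η) ^ (1 / p))
      (Real.rpow_pos_of_pos (by linarith) _) (D1 := s) (by linarith) _ e G hG g'
    · intro x y
      have h1 := hg x y
      rw [← hg'] at h1
      exact lp_of_pow hp hη0 hη1 hs1.le hηs (fun k => g' x k - g' y k)
        (fun ω => G x ω - G y ω) h1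
    · rw [hηs, ← mul_assoc, hss]
  obtain ⟨h1, h2⟩ := dimP_le hadm
  refine ⟨h1, ?_⟩
  calc (dimP.{u} p D n : ℝ) ≤ N := by exact_mod_cast h2
    _ ≤ _ := by rw [hN]; exact Nat.floor_le (Real.exp_pos _).le

end Vale.Agent.P249C
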